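import Vale.Agent.P370.H337.Forms

/-! **Block F3B**: the two theorems. -/

namespace Vale.Agent.P370.H337

open Finset Function

set_option linter.unusedSectionVars false

noncomputable section

variable {κ : Type} [Fintype κ] [DecidableEq κ]

/-- the state of blocks of a state of sites -/
def ofSites {ι : Type} (χ : (ι × Fin 3 → Bool) → ℝ) : St ι B3 := fun x => χ (cfg ι x)

lemma sum_sites {ι : Type} [Fintype ι] [DecidableEq ι] (f : (ι × Fin 3 → Bool) → ℝ) :
    ∑ s, f s = ∑ x, f (cfg ι x) :=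
  (Fintype.sum_equiv (cfg ι) (fun x => f (cfg ι x)) f fun _ => rfl).symm

lemma ip_sw_ofSites {ι : Type} [Fintype ι] [DecidableEq ι] (p p' : ι × Fin 3)
    (χ : (ι × Fin 3 → Bool) → ℝ) :
    ip (ofSites χ) (sw p p' (ofSites χ)) = ∑ s, χ s * χ (s ∘ Equiv.swap p p') := by
  rw [sum_sites]
  unfold ip ofSites sw
  refine Finset.sum_congr rfl fun x _ => ?_
  simp only [Equiv.apply_symm_apply]

lemma third_ne : ∀ i j : Fin 3, i ≠ j → third i j ≠ i ∧ third i j ≠ j := by decide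

lemma third_oi : ∀ i j k : Fin 3, i ≠ j → (third i j = k ↔ (i = oi k ∧ j = oj k) ∨
    (i = oj k ∧ j = oi k)) := by decide

lemma sum_in_block (f : Fin 3 → ℝ) :
    ∑ i : Fin 3, ∑ j : Fin 3, (if i = j then 0 else f (third i j)) = 2 * ∑ k, f k := by
  simp only [Fin.sum_univ_three]
  have h01 : third 0 1 = 2 := by decide
  have h10 : third 1 0 = 2 := by decide
  have h02 : third 0 2 = 1 := by decide
  have h20 : third 2 0 = 1 := by decide
  have h12 : third 1 2 = 0 := by decide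
  have h21 : third 2 1 = 0 := by decide
  simp [h01, h10, h02, h20, h12, h21]
  ring

lemma sw_comm {ι : Type} [DecidableEq ι] (p p' : ι × Fin 3) (ψ : St ι B3) :
    sw p p' ψ = sw p' p ψ := by
  unfold sw
  rw [Equiv.swap_comm]

/-- The Heisenberg form is the sum of its three parts. -/
lemma hsw_eq (c : κ → κ → Fin 3 → Fin 3 → ℝ) (hx hz : κ → ℝ) (B L J0 : ℝ)
    (χ : (Option κ × Fin 3 → Bool) → ℝ) :
    hsw (JJ c hx hz B L J0) χ = B * XF (ofSites χ) + L * LF (ofSites χ) (ofSites χ) +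
      WF c hx hz J0 (ofSites χ) (ofSites χ) := by
  set ψ := ofSites χ with hψ
  have h0 : hsw (JJ c hx hz B L J0) χ = 1 / 2 * ∑ I : Option κ, ∑ J : Option κ, ∑ i : Fin 3,
      ∑ j : Fin 3, (if (I, i) = (J, j) then 0 else
        JJ c hx hz B L J0 (I, i) (J, j) * ip ψ (sw (I, i) (J, j) ψ)) := by
    unfold hsw
    congr 1
    have h1 : ∀ p : Option κ × Fin 3, ∑ p' ∈ univ.erase p, JJ c hx hz B L J0 p p' *
        ∑ s, χ s * χ (s ∘ Equiv.swap p p') =
        ∑ p', (if p = p' then 0 else JJ c hx hz B L J0 p p' * ip ψ (sw p p' ψ)) := by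
      intro p
      rw [← Finset.add_sum_erase _ _ (Finset.mem_univ p), if_pos rfl, zero_add]
      refine Finset.sum_congr rfl fun p' hp' => ?_
      rw [if_neg (by simpa [eq_comm] using hp'), ip_sw_ofSites]
    simp_rw [h1]
    rw [Fintype.sum_prod_type]
    refine Finset.sum_congr rfl fun I _ => ?_
    simp_rw [Fintype.sum_prod_type]
    rw [Finset.sum_comm]
  -- the block sums
  have hb : ∀ (I : Option κ) (f : Fin 3 → ℝ),
      ∑ i : Fin 3, ∑ j : Fin 3, (if (I, i) = (I, j) then 0 else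
        f (third i j) * ip ψ (sw (I, i) (I, j) ψ)) =
      2 * ∑ k, f k * ip ψ (loc I (rm (zS k)) ψ) := by
    intro I f
    rw [← sum_in_block]
    refine Finset.sum_congr rfl fun i _ => Finset.sum_congr rfl fun j _ => ?_
    by_cases hij : i = j
    · simp [hij]
    · rw [if_neg (by simpa using hij), if_neg hij,
        sw_same I hij (third_ne i j hij).1 (third_ne i j hij).2]
  have h2 : ∀ (I : Option κ), ∑ J : Option κ, ∑ i : Fin 3,
      ∑ j : Fin 3, (if (I, i) = (J, j) then 0 else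
        JJ c hx hz B L J0 (I, i) (J, j) * ip ψ (sw (I, i) (J, j) ψ)) =
      (∑ i : Fin 3, ∑ j : Fin 3, (if (I, i) = (none, j) then 0 else
        JJ c hx hz B L J0 (I, i) (none, j) * ip ψ (sw (I, i) (none, j) ψ))) +
      ∑ q : κ, (∑ i : Fin 3, ∑ j : Fin 3, (if (I, i) = (some q, j) then 0 else
        JJ c hx hz B L J0 (I, i) (some q, j) * ip ψ (sw (I, i) (some q, j) ψ))) := by
    intro I
    rw [Fintype.sum_option]
  rw [h0, Fintype.sum_option, h2 none]
  simp_rw [h2 (some _)]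
  have e1 : (∑ i : Fin 3, ∑ j : Fin 3,
      (if ((none : Option κ), i) = ((none : Option κ), j) then 0 else
        JJ c hx hz B L J0 (none, i) (none, j) * ip ψ (sw (none, i) (none, j) ψ))) =
      2 * ∑ k, B * ip ψ (loc none (rm (zS k)) ψ) := hb none fun _ => B
  have e2 : (∑ q : κ, (∑ i : Fin 3, ∑ j : Fin 3,
      (if ((none : Option κ), i) = (some q, j) then 0 else
        JJ c hx hz B L J0 (none, i) (some q, j) * ip ψ (sw (none, i) (some q, j) ψ)))) =
      L * LF ψ ψ := by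
    rw [LF, Finset.mul_sum]
    refine Finset.sum_congr rfl fun q _ => ?_
    rw [Finset.mul_sum]
    refine Finset.sum_congr rfl fun i _ => ?_
    rw [Finset.mul_sum]
    refine Finset.sum_congr rfl fun j _ => ?_
    rw [if_neg (by simp)]
    rfl
  have e3 : ∀ q : κ, (∑ i : Fin 3, ∑ j : Fin 3,
      (if (some q, i) = ((none : Option κ), j) then 0 else
        JJ c hx hz B L J0 (some q, i) (none, j) * ip ψ (sw (some q, i) (none, j) ψ))) =
      L * ∑ i : Fin 3, ∑ j : Fin 3, ip ψ (sw (none, i) (some q, j) ψ) := by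
    intro q
    rw [Finset.sum_comm, Finset.mul_sum]
    refine Finset.sum_congr rfl fun i _ => ?_
    rw [Finset.mul_sum]
    refine Finset.sum_congr rfl fun j _ => ?_
    rw [if_neg (by simp), sw_comm]
    rfl
  have e4 : ∀ q : κ, (∑ q' : κ, ∑ i : Fin 3, ∑ j : Fin 3,
      (if (some q, i) = (some q', j) then 0 else
        JJ c hx hz B L J0 (some q, i) (some q', j) * ip ψ (sw (some q, i) (some q', j) ψ))) =
      2 * (∑ k, (B + gg hx hz q k) * ip ψ (loc (some q) (rm (zS k)) ψ)) +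
      ∑ q' ∈ univ.erase q, ∑ i : Fin 3, ∑ j : Fin 3,
        (J0 + ww c q q' i j) * ip ψ (sw (some q, i) (some q', j) ψ) := by
    intro q
    rw [← Finset.add_sum_erase _ _ (Finset.mem_univ q)]
    congr 1
    · rw [← hb (some q) fun k => B + gg hx hz q k]
      refine Finset.sum_congr rfl fun i _ => Finset.sum_congr rfl fun j _ => ?_
      simp only [JJ, if_true]
    · refine Finset.sum_congr rfl fun q' hq' => ?_
      have hq : q ≠ q' := by simpa [eq_comm] using hq'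
      refine Finset.sum_congr rfl fun i _ => Finset.sum_congr rfl fun j _ => ?_
      rw [if_neg (by simp [hq])]
      simp only [JJ, if_neg hq]
  simp_rw [e1, e2, e3, e4]
  rw [XF, Fintype.sum_option, WF, LF]
  simp_rw [add_mul, Finset.sum_add_distrib, mul_add, Finset.sum_add_distrib, ← Finset.mul_sum]
  ring

/-! ### A scalar lemma -/

lemma proj_scalar {a b e R Γ η F00 F01 F10 F11 : ℝ} (hη : 0 ≤ η)
    (hΓ : 0 ≤ Γ) (hR : 0 ≤ R) (he : e ≤ R) (hη2 : R ^ 2 ≤ η * (Γ - 2 * R))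
    (h00 : e * a ^ 2 ≤ F00) (h01 : |F01| ≤ R * (a * b)) (h10 : |F10| ≤ R * (b * a))
    (h11 : |F11| ≤ R * (b * b)) :
    (e - η) * (a ^ 2 + b ^ 2) ≤ Γ * b ^ 2 + (F00 + F01 + F10 + F11) := by
  have h1 := (abs_le.1 h01).1
  have h2 := (abs_le.1 h10).1
  have h3 := (abs_le.1 h11).1
  have key : 0 ≤ η * a ^ 2 - 2 * R * (a * b) + (Γ - 2 * R) * b ^ 2 := by
    rcases hη.eq_or_lt with h | h
    · rw [← h, zero_mul] at hη2
      have hR0 : R = 0 := by nlinarith
      rw [← h, hR0]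
      nlinarith [mul_nonneg hΓ (sq_nonneg b)]
    · have h4 : 0 ≤ η * (η * a ^ 2 - 2 * R * (a * b) + (Γ - 2 * R) * b ^ 2) := by
        have h5 : R ^ 2 * b ^ 2 ≤ η * (Γ - 2 * R) * b ^ 2 :=
          mul_le_mul_of_nonneg_right hη2 (sq_nonneg b)
        nlinarith [sq_nonneg (η * a - R * b)]
      by_contra h6
      push Not at h6
      nlinarith
  have h5 : e * b ^ 2 ≤ R * b ^ 2 := mul_le_mul_of_nonneg_right he (sq_nonneg b)
  have h6 : 0 ≤ η * b ^ 2 := mul_nonneg hη (sq_nonneg b)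
  nlinarith

/-! ### Slices of the logical configuration -/

/-- configurations of `Option κ` -/
def oc (κ : Type) : Bool × (κ → Bool) ≃ (Option κ → Bool) where
  toFun p o := o.elim p.1 p.2
  invFun f := (f none, fun q => f (some q))
  left_inv p := rfl
  right_inv f := by
    funext o
    cases o <;> rfl

lemma oc_none (b : Bool) (x : κ → Bool) : oc κ (b, x) none = b := rfl

lemma oc_some (b : Bool) (x : κ → Bool) (q : κ) : oc κ (b, x) (some q) = x q := rfl

/-- slice -/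
def sl (b : Bool) (η : St (Option κ) Bool) : St κ Bool := fun x => η (oc κ (b, x))

lemma ip_sl (η ξ : St (Option κ) Bool) :
    ip η ξ = ip (sl true η) (sl true ξ) + ip (sl false η) (sl false ξ) := by
  have h : ip η ξ = ∑ p : Bool × (κ → Bool), η (oc κ p) * ξ (oc κ p) :=
    (Fintype.sum_equiv (oc κ) _ _ fun _ => rfl).symm
  rw [h, Fintype.sum_prod_type, Fintype.sum_bool]
  rfl

lemma sq_sl (η : St (Option κ) Bool) : sq η = sq (sl true η) + sq (sl false η) := by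
  rw [sq_eq_ip, ip_sl, sq_eq_ip, sq_eq_ip]

lemma sl_loc (b : Bool) (q : κ) (M : Matrix Bool Bool ℝ) (η : St (Option κ) Bool) :
    sl b (loc (some q) M η) = loc q M (sl b η) := by
  funext x
  have h : ∀ d : Bool, update (oc κ (b, x)) (some q) d = oc κ (b, update x q d) := by
    intro d
    funext o
    cases o with
    | none => rw [update_of_ne (by simp), oc_none, oc_none]
    | some q' =>
      by_cases h : q' = q
      · subst h
        rw [update_self, oc_some, update_self]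
      · rw [update_of_ne (by simpa using h), oc_some, oc_some, update_of_ne h]
  simp only [sl, loc_apply]
  refine Finset.sum_congr rfl fun d _ => ?_
  rw [h]
  rfl

lemma HLx_eq (c : κ → κ → Fin 3 → Fin 3 → ℝ) (hx hz : κ → ℝ) (η : St (Option κ) Bool) :
    HLx c hx hz η = HL c hx hz (sl true η) + HL c hx hz (sl false η) := by
  simp only [HLx, HL, ip_sl η, sl_loc, mul_add, Finset.sum_add_distrib]
  ring

/-! ### The second stage -/

lemma sqrt_mul_self_sq (x : St (Option κ) B3) : Real.sqrt (sq x) * Real.sqrt (sq x) = sq x :=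
  Real.mul_self_sqrt (sq_nonneg' x)

lemma sq_QQ_add (ψ : St (Option κ) Bool) : sq ψ = sq (QQ ψ) + sq (ψ - QQ ψ) := by
  have h : ψ = QQ ψ + (ψ - QQ ψ) := by abel
  have h2 : ip (QQ ψ) (ψ - QQ ψ) = 0 := by
    rw [ip_sub_right]
    have h1 : ip (QQ ψ) (QQ ψ) = ip (QQ ψ) ψ := by rw [QQ_symm, QQ_QQ, ip_comm]
    rw [h1, sub_self]
  nth_rewrite 1 [h]
  rw [sq_add, h2]
  ring

/-- test vector -/
def wv : F2 (Option κ) := fun _ => kv

lemma wv_pos [Nonempty κ] : 0 < sq2 (wv : F2 (Option κ)) := by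
  have h : 0 < NN κ := by
    unfold NN
    exact_mod_cast Fintype.card_pos
  exact Finset.sum_pos (fun j _ => sq_kv h) Finset.univ_nonempty

lemma QQ_kv : QQ (kv : St (Option κ) Bool) = kv := QQ_of act_kv YY_kv

lemma RW_nonneg (c : κ → κ → Fin 3 → Fin 3 → ℝ) (hx hz : κ → ℝ) (J0 : ℝ) :
    0 ≤ RW c hx hz J0 := by
  unfold RW
  positivity

/-- The weak part of the offset. -/
def Ew (c : κ → κ → Fin 3 → Fin 3 → ℝ) (J0 : ℝ) : ℝ :=
  5 / 2 * (NN κ * (NN κ - 1)) * J0 + 9 * ∑ q, ∑ q' ∈ univ.erase q, c q q' 0 0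

lemma Eoff_eq (c : κ → κ → Fin 3 → Fin 3 → ℝ) (L J0 : ℝ) :
    Eoff c L J0 = L * (4 * NN κ - 1) + Ew c J0 := by
  unfold Eoff Ew
  ring

section Lower

variable [Nonempty κ] (c : κ → κ → Fin 3 → Fin 3 → ℝ) (hx hz : κ → ℝ)
  {L J0 R2 R1 η2 lam : ℝ}

include hx hz in
lemma WF_lower (hlam : ∀ η : St κ Bool, lam * sq η ≤ HL c hx hz η)
    {φ : F2 (Option κ)} {ψ : St (Option κ) B3} (hψ : tr OO ψ = emb φ)
    (hφ : ∀ j, QQ (φ j) = φ j) : (Ew c J0 + lam) * sq ψ ≤ WF c hx hz J0 ψ ψ := by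
  rw [WF_emb c hx hz J0 hψ hφ, sq_tr_emb hψ]
  have h1 : lam * sq2 φ ≤ ∑ s, HLx c hx hz (col s φ) := by
    rw [← ip2_self, ip2_col, Finset.mul_sum]
    refine Finset.sum_le_sum fun s _ => ?_
    rw [HLx_eq, ← sq_eq_ip, sq_sl, mul_add]
    exact add_le_add (hlam _) (hlam _)
  unfold Ew
  linarith

include hx hz in
lemma e_le (hR2 : RW c hx hz J0 ≤ R2)
    (hlam : ∀ η : St κ Bool, lam * sq η ≤ HL c hx hz η) : Ew c J0 + lam ≤ R2 := by
  obtain ⟨ψ, hψ⟩ := tr_surjective OO_orth (emb (wv : F2 (Option κ)))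
  have h1 := WF_lower (J0 := J0) c hx hz hlam hψ fun _ => QQ_kv
  have h2 := abs_WF c hx hz J0 ψ ψ
  rw [sqrt_mul_self_sq] at h2
  have h3 : 0 < sq ψ := by
    rw [sq_tr_emb hψ]
    exact wv_pos
  have h4 := le_abs_self (WF c hx hz J0 ψ ψ)
  have h5 : (Ew c J0 + lam) * sq ψ ≤ R2 * sq ψ := by nlinarith
  exact le_of_mul_le_mul_right h5 h3

include hx hz in
lemma stage2 (hR2 : RW c hx hz J0 ≤ R2) (hL : 0 ≤ L) (hη2 : 0 ≤ η2)
    (h2 : R2 ^ 2 ≤ η2 * (L / (2 * (NN κ + 1) ^ 3) - 2 * R2))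
    (hlam : ∀ η : St κ Bool, lam * sq η ≤ HL c hx hz η)
    {φ : F2 (Option κ)} {ψ : St (Option κ) B3} (hψ : tr OO ψ = emb φ) :
    (Eoff c L J0 + lam - η2) * sq ψ ≤ L * LF ψ ψ + WF c hx hz J0 ψ ψ := by
  have hN := NN_nonneg (κ := κ)
  set φ0 : F2 (Option κ) := fun j => QQ (φ j) with hφ0
  set φ1 : F2 (Option κ) := φ - φ0 with hφ1
  obtain ⟨ψ0, hψ0⟩ := tr_surjective OO_orth (emb φ0)
  set ψ1 := ψ - ψ0 with hψ1d
  have hψ1 : tr OO ψ1 = emb φ1 := by
    rw [hψ1d, map_sub, hψ, hψ0, hφ1, emb_sub]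
  have hsum : ψ = ψ0 + ψ1 := by
    rw [hψ1d]
    abel
  have hsq : sq ψ = sq ψ0 + sq ψ1 := by
    rw [sq_tr_emb hψ, sq_tr_emb hψ0, sq_tr_emb hψ1, sq2, sq2, sq2, ← Finset.sum_add_distrib]
    exact Finset.sum_congr rfl fun j _ => sq_QQ_add (φ j)
  have hLF : (4 * NN κ - 1) * sq ψ + (1 / (2 * (NN κ + 1) ^ 3)) * sq ψ1 ≤ LF ψ ψ := by
    rw [LF_emb hψ hψ, ip2_self, sq_tr_emb hψ, sq_tr_emb hψ1]
    have h3 : (1 / (2 * (NN κ + 1) ^ 3)) * sq2 φ1 ≤ (∑ j, ip (φ j) (YY (φ j))) + sq2 φ := by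
      rw [sq2, sq2, Finset.mul_sum, ← Finset.sum_add_distrib]
      exact Finset.sum_le_sum fun j _ => star_gap (φ j)
    linarith
  have hW0 := WF_lower (J0 := J0) c hx hz hlam hψ0 fun j => QQ_QQ (φ j)
  have hRpos : 0 ≤ R2 := (RW_nonneg c hx hz J0).trans hR2
  have hbd : ∀ x y : St (Option κ) B3, |WF c hx hz J0 x y| ≤
      R2 * (Real.sqrt (sq x) * Real.sqrt (sq y)) := fun x y =>
    (abs_WF c hx hz J0 x y).trans (mul_le_mul_of_nonneg_right hR2 (by positivity))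
  have hps := proj_scalar (a := Real.sqrt (sq ψ0)) (b := Real.sqrt (sq ψ1)) (e := Ew c J0 + lam)
    (R := R2) (Γ := L / (2 * (NN κ + 1) ^ 3)) (η := η2) (F00 := WF c hx hz J0 ψ0 ψ0)
    (F01 := WF c hx hz J0 ψ0 ψ1) (F10 := WF c hx hz J0 ψ1 ψ0) (F11 := WF c hx hz J0 ψ1 ψ1)
    hη2 (by positivity) hRpos (e_le c hx hz hR2 hlam) h2
    (by rw [Real.sq_sqrt (sq_nonneg' _)]; exact hW0) (hbd _ _) (hbd _ _) (hbd _ _)
  rw [Real.sq_sqrt (sq_nonneg' _), Real.sq_sqrt (sq_nonneg' _), ← WF_add, ← hsum, ← hsq] at hps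
  have h5 := mul_le_mul_of_nonneg_left hLF hL
  rw [Eoff_eq]
  have h6 : L / (2 * (NN κ + 1) ^ 3) * sq ψ1 = L * (1 / (2 * (NN κ + 1) ^ 3) * sq ψ1) := by ring
  rw [h6] at hps
  nlinarith

end Lower

/-- **Lower bound of block F3B.** -/
theorem lower : LowerStmt := by
  intro κ _ _ _ c hx hz B L J0 R2 R1 η1 η2 lam hR2 hR1 hL hB hη1 hη2 h2 h1 hlam χ
  have hN := NN_nonneg (κ := κ)
  rw [hsw_eq]
  have hsqχ : ∑ s, χ s ^ 2 = sq (ofSites χ) := by
    rw [sum_sites]
    rfl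
  rw [hsqχ]
  set ψ := ofSites χ
  set φ := res (tr OO ψ) with hφ
  obtain ⟨ψ0, hψ0⟩ := tr_surjective OO_orth (emb φ)
  set ψ1 := ψ - ψ0 with hψ1d
  have hψ1 : tr OO ψ1 = tr OO ψ - emb φ := by rw [hψ1d, map_sub, hψ0]
  have hsum : ψ = ψ0 + ψ1 := by
    rw [hψ1d]
    abel
  have hort : ip ψ0 ψ1 = 0 := by
    rw [ip_tr_emb hψ0, hψ1]
    have : res (tr OO ψ - emb φ) = 0 := by
      have h3 : res (tr OO ψ - emb φ) = res (tr OO ψ) - res (emb φ) := rfl
      rw [h3, res_emb, hφ, sub_self]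
    rw [this]
    simp [ip2, ip]
  have hsq : sq ψ = sq ψ0 + sq ψ1 := by
    rw [sq_eq_ip, hsum, ip_add_left, ip_add_right, ip_add_right, hort, ip_comm ψ1 ψ0, hort,
      ← sq_eq_ip, ← sq_eq_ip]
    ring
  have hX : 3 * sq ψ1 ≤ XF ψ := XF_ge ψ ψ1 hψ1
  have hst := stage2 (L := L) c hx hz hR2 hL hη2 h2 hlam hψ0
  have hRpos : 0 ≤ R1 := by
    have h3 := (RW_nonneg c hx hz J0).trans hR2
    have : 0 ≤ 9 * NN κ * L := by positivity
    linarith
  have hbd : ∀ x y : St (Option κ) B3, |L * LF x y + WF c hx hz J0 x y| ≤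
      R1 * (Real.sqrt (sq x) * Real.sqrt (sq y)) := by
    intro x y
    refine (abs_add_le _ _).trans ?_
    rw [abs_mul, abs_of_nonneg hL]
    have h3 := abs_LF x y
    have h4 := abs_WF c hx hz J0 x y
    have h5 : 0 ≤ Real.sqrt (sq x) * Real.sqrt (sq y) := by positivity
    have h6 : RW c hx hz J0 * (Real.sqrt (sq x) * Real.sqrt (sq y)) ≤
        R2 * (Real.sqrt (sq x) * Real.sqrt (sq y)) := mul_le_mul_of_nonneg_right hR2 h5
    have h7 : (9 * NN κ * L + R2) * (Real.sqrt (sq x) * Real.sqrt (sq y)) ≤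
        R1 * (Real.sqrt (sq x) * Real.sqrt (sq y)) := mul_le_mul_of_nonneg_right hR1 h5
    have h8 : L * |LF x y| ≤ L * (9 * NN κ * (Real.sqrt (sq x) * Real.sqrt (sq y))) :=
      mul_le_mul_of_nonneg_left h3 hL
    nlinarith
  have he : Eoff c L J0 + lam - η2 ≤ R1 := by
    obtain ⟨w, hw⟩ := tr_surjective OO_orth (emb (wv : F2 (Option κ)))
    have h3 := stage2 (L := L) c hx hz hR2 hL hη2 h2 hlam hw
    have h4 := hbd w w
    rw [sqrt_mul_self_sq] at h4
    have h5 : 0 < sq w := by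
      rw [sq_tr_emb hw]
      exact wv_pos
    have h6 := le_abs_self (L * LF w w + WF c hx hz J0 w w)
    exact le_of_mul_le_mul_right (h3.trans (h6.trans h4)) h5
  have hps := proj_scalar (a := Real.sqrt (sq ψ0)) (b := Real.sqrt (sq ψ1))
    (e := Eoff c L J0 + lam - η2) (R := R1) (Γ := 3 * B) (η := η1)
    (F00 := L * LF ψ0 ψ0 + WF c hx hz J0 ψ0 ψ0)
    (F01 := L * LF ψ0 ψ1 + WF c hx hz J0 ψ0 ψ1) (F10 := L * LF ψ1 ψ0 + WF c hx hz J0 ψ1 ψ0)
    (F11 := L * LF ψ1 ψ1 + WF c hx hz J0 ψ1 ψ1)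
    hη1 (by positivity) hRpos he h1
    (by rw [Real.sq_sqrt (sq_nonneg' _)]; exact hst) (hbd _ _) (hbd _ _) (hbd _ _)
  rw [Real.sq_sqrt (sq_nonneg' _), Real.sq_sqrt (sq_nonneg' _), ← hsq] at hps
  have h5 := LF_add ψ0 ψ1 ψ0 ψ1
  have h6 := WF_add c hx hz J0 ψ0 ψ1 ψ0 ψ1
  rw [← hsum] at h5 h6
  have h7 : B * (3 * sq ψ1) ≤ B * XF ψ := mul_le_mul_of_nonneg_left hX hB
  rw [h5, h6]
  nlinarith

/-- **Upper bound of block F3B.** -/
theorem upper : UpperStmt := by
  intro κ _ _ _ c hx hz B L J0 lam hη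
  obtain ⟨η, hη0, hη⟩ := hη
  have hN : 0 < NN κ := by
    unfold NN
    exact_mod_cast Fintype.card_pos
  set ηx : St (Option κ) Bool := fun j => η (fun q => j (some q)) with hηx
  have hsl : ∀ b, sl b ηx = η := fun b => rfl
  set φ : F2 (Option κ) := fun j => ηx j • kv with hφ
  obtain ⟨ψ, hψ⟩ := tr_surjective OO_orth (emb φ)
  have hQ : ∀ j, QQ (φ j) = φ j := by
    intro j
    refine QQ_of (fun σ => ?_) ?_
    · rw [hφ, map_smul, act_kv]
    · simp only [hφ, map_smul, YY_kv, smul_neg]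
  have hcol : ∀ s, col s φ = (kv : St (Option κ) Bool) s • ηx := by
    intro s
    funext j
    simp [col, hφ, mul_comm]
  have hsq2 : sq2 φ = sq (kv : St (Option κ) Bool) * (2 * sq η) := by
    have h1 : sq ηx = 2 * sq η := by
      rw [sq_sl, hsl, hsl]
      ring
    rw [sq2, ← h1]
    simp only [hφ, sq_smul]
    rw [sq, ← Finset.sum_mul, mul_comm]
    rfl
  have hHL : ∀ (a : ℝ) (ξ : St κ Bool), HL c hx hz (a • ξ) = a ^ 2 * HL c hx hz ξ := by
    intro a ξ
    simp only [HL, map_smul, ip_smul_left, ip_smul_right, mul_add, Finset.mul_sum]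
    congr 1
    · refine Finset.sum_congr rfl fun q _ => Finset.sum_congr rfl fun q' _ =>
        Finset.sum_congr rfl fun P _ => Finset.sum_congr rfl fun Q _ => ?_
      ring
    · refine Finset.sum_congr rfl fun q _ => ?_
      ring
  have hHLx : ∀ s, HLx c hx hz (col s φ) =
      (kv : St (Option κ) Bool) s ^ 2 * (2 * HL c hx hz η) := by
    intro s
    rw [hcol, HLx_eq]
    have h1 : ∀ b, sl b ((kv : St (Option κ) Bool) s • ηx) = (kv : St (Option κ) Bool) s • η :=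
      fun b => rfl
    rw [h1, h1, hHL]
    ring
  have hLF : LF ψ ψ = (4 * NN κ - 1) * sq ψ := by
    rw [LF_emb hψ hψ, ip2_self, sq_tr_emb hψ]
    have h1 : ∀ j, ip (φ j) (YY (φ j)) = -sq (φ j) := by
      intro j
      have h2 : YY (φ j) = (-1 : ℝ) • φ j := by
        simp only [hφ, map_smul, YY_kv]
        module
      rw [h2, ip_smul_right, ← sq_eq_ip]
      ring
    simp_rw [h1]
    rw [Finset.sum_neg_distrib, sq2]
    ring
  have hpos : 0 < sq ψ := by
    rw [sq_tr_emb hψ, hsq2]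
    have := sq_kv hN
    positivity
  refine ⟨fun s => ψ ((cfg (Option κ)).symm s), ?_, ?_⟩
  · rw [sum_sites]
    simp only [Equiv.symm_apply_apply]
    exact hpos
  · rw [hsw_eq, sum_sites]
    have hof : ofSites (fun s => ψ ((cfg (Option κ)).symm s)) = ψ := by
      funext x
      simp [ofSites]
    rw [hof]
    simp only [Equiv.symm_apply_apply]
    have h0 : ∑ x, ψ x ^ 2 = sq ψ := rfl
    rw [h0, XF_emb hψ, hLF, WF_emb c hx hz J0 hψ hQ, Eoff_eq]
    have h1 : ∑ s, HLx c hx hz (col s φ) ≤ lam * sq ψ := by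
      simp_rw [hHLx]
      rw [← Finset.sum_mul, sq_tr_emb hψ, hsq2]
      have h2 : ∑ s, (kv : St (Option κ) Bool) s ^ 2 = sq (kv : St (Option κ) Bool) := rfl
      rw [h2]
      have h3 := (sq_kv hN).le
      nlinarith [mul_le_mul_of_nonneg_left hη h3]
    rw [← sq_tr_emb hψ]
    unfold Ew
    nlinarith

end

end Vale.Agent.P370.H337
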