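import Vale.Agent.P370.H337.Emb

/-! **Block F3B**: definitions.  A 2-local Hamiltonian in the Paulis `1, X, Z` on the qubits `κ`
and the antiferromagnetic Heisenberg model on the sites `Option κ × Fin 3` which simulates it. -/

namespace Vale.Agent.P370.H337

open Finset Function

set_option linter.unusedSectionVars false

noncomputable section

/-- logical matrices: `0 ↦ 1`, `1 ↦ X`, `2 ↦ Z` -/
def PM (P : Fin 3) : Matrix Bool Bool ℝ := fun a b =>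
  ![if a = b then 1 else 0, if a = b then 0 else 1,
    if a = b then (if a = true then -1 else 1) else 0] P

variable {κ : Type} [Fintype κ] [DecidableEq κ]

/-- The logical 2-local form: `∑_{q ≠ q'} ∑_{P,Q} c q q' P Q P_q Q_{q'} + ∑_q (hx X_q + hz Z_q)`. -/
def HL (c : κ → κ → Fin 3 → Fin 3 → ℝ) (hx hz : κ → ℝ) (η : St κ Bool) : ℝ :=
  (∑ q, ∑ q' ∈ univ.erase q, ∑ P, ∑ Q,
    c q q' P Q * ip η (loc q (PM P) (loc q' (PM Q) η))) +
  ∑ q, (hx q * ip η (loc q (PM 1) η) + hz q * ip η (loc q (PM 2) η))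

/-- coefficients of `1, X, Z` in the matrices `A_i` -/
def mm (P i : Fin 3) : ℝ :=
  ![![1, 1, 1], ![0, -(Real.sqrt 3 / 2), Real.sqrt 3 / 2], ![1, -1 / 2, -1 / 2]] P i

/-- couplings between two blocks -/
def ww (c : κ → κ → Fin 3 → Fin 3 → ℝ) (q q' : κ) (i j : Fin 3) : ℝ :=
  2 * ∑ P, ∑ Q, (c q q' P Q + c q' q Q P) * (mm P i * mm Q j)

/-- local couplings: `gg q k` is the correction of the exchange of the two spins different from
`k` of block `q` -/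
def gg (hx hz : κ → ℝ) (q : κ) (k : Fin 3) : ℝ :=
  ![-(2 / 3) * hz q, 1 / 3 * hz q + Real.sqrt 3 / 3 * hx q,
    1 / 3 * hz q - Real.sqrt 3 / 3 * hx q] k

/-- the third index -/
def third (i j : Fin 3) : Fin 3 := -(i + j)

/-- The couplings of the Heisenberg model. -/
def JJ (c : κ → κ → Fin 3 → Fin 3 → ℝ) (hx hz : κ → ℝ) (B L J0 : ℝ) :
    Option κ × Fin 3 → Option κ × Fin 3 → ℝ
  | (none, _), (none, _) => B
  | (none, _), (some _, _) => L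
  | (some _, _), (none, _) => L
  | (some q, i), (some q', j) =>
      if q = q' then B + gg hx hz q (third i j) else J0 + ww c q q' i j

/-- The Heisenberg form `∑_{p < p'} J p p' ⟨χ, SWAP χ⟩`, written as half of the sum over ordered
pairs. -/
def hsw {α : Type} [Fintype α] [DecidableEq α] (J : α → α → ℝ) (χ : (α → Bool) → ℝ) : ℝ :=
  (1 / 2) * ∑ p, ∑ p' ∈ univ.erase p, J p p' * ∑ s, χ s * χ (s ∘ Equiv.swap p p')

/-- The energy offset. -/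
def Eoff (c : κ → κ → Fin 3 → Fin 3 → ℝ) (L J0 : ℝ) : ℝ :=
  L * (4 * NN κ - 1) + 5 / 2 * (NN κ * (NN κ - 1)) * J0 +
    9 * ∑ q, ∑ q' ∈ univ.erase q, c q q' 0 0

/-- Bound of the weak part. -/
def RW (c : κ → κ → Fin 3 → Fin 3 → ℝ) (hx hz : κ → ℝ) (J0 : ℝ) : ℝ :=
  (∑ q : κ, ∑ k, |gg hx hz q k|) +
    1 / 2 * ∑ q : κ, ∑ q' ∈ univ.erase q, ∑ i, ∑ j, |J0 + ww c q q' i j|

/-- **Lower bound.** -/
def LowerStmt : Prop := ∀ (κ : Type) [Fintype κ] [DecidableEq κ] [Nonempty κ]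
  (c : κ → κ → Fin 3 → Fin 3 → ℝ) (hx hz : κ → ℝ) (B L J0 R2 R1 η1 η2 lam : ℝ),
  RW c hx hz J0 ≤ R2 → 9 * NN κ * L + R2 ≤ R1 → 0 ≤ L → 0 ≤ B → 0 ≤ η1 → 0 ≤ η2 →
  R2 ^ 2 ≤ η2 * (L / (2 * (NN κ + 1) ^ 3) - 2 * R2) →
  R1 ^ 2 ≤ η1 * (3 * B - 2 * R1) →
  (∀ η : St κ Bool, lam * sq η ≤ HL c hx hz η) →
  ∀ χ : (Option κ × Fin 3 → Bool) → ℝ,
    (Eoff c L J0 + lam - η1 - η2) * (∑ s, χ s ^ 2) ≤ hsw (JJ c hx hz B L J0) χ

/-- **Upper bound** (no error). -/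
def UpperStmt : Prop := ∀ (κ : Type) [Fintype κ] [DecidableEq κ] [Nonempty κ]
  (c : κ → κ → Fin 3 → Fin 3 → ℝ) (hx hz : κ → ℝ) (B L J0 lam : ℝ),
  (∃ η : St κ Bool, 0 < sq η ∧ HL c hx hz η ≤ lam * sq η) →
  ∃ χ : (Option κ × Fin 3 → Bool) → ℝ, 0 < (∑ s, χ s ^ 2) ∧
    hsw (JJ c hx hz B L J0) χ ≤ (Eoff c L J0 + lam) * (∑ s, χ s ^ 2)

end

end Vale.Agent.P370.H337
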