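import Vale.Agent.P370.H337.Defs

/-! Matrix identities for the logical operators, and the restricted forms. -/

namespace Vale.Agent.P370.H337

open Finset Function

set_option linter.unusedSectionVars false

noncomputable section

/-! ### Matrices -/

lemma clff : cl false * cl false = 1 / 2 := by
  rw [cl, cn_sq]
  norm_num [un]

lemma cltt : cl true * cl true = 1 / 6 := by
  rw [cl, cn_sq]
  norm_num [un]

lemma clft : cl false * cl true = Real.sqrt 3 / 6 := by
  have h2 : (0 : ℝ) ≤ cl false := by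
    unfold cl cn
    positivity
  have h3 : (0 : ℝ) ≤ cl true := by
    unfold cl cn
    positivity
  have h4 : (cl false * cl true) ^ 2 = (Real.sqrt 3 / 6) ^ 2 := by
    have : (cl false * cl true) ^ 2 = (cl false * cl false) * (cl true * cl true) := by ring
    rw [this, clff, cltt, div_pow, Real.sq_sqrt (by norm_num)]
    norm_num
  exact (sq_eq_sq₀ (by positivity) (by positivity)).1 h4

lemma cltf : cl true * cl false = Real.sqrt 3 / 6 := by rw [mul_comm, clft]

lemma PM_eq (P : Fin 3) : PM P = ∑ i, mm P i • AA i := by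
  have h3 : Real.sqrt 3 * Real.sqrt 3 = 3 := Real.mul_self_sqrt (by norm_num)
  ext a b
  rw [Matrix.sum_apply]
  simp only [Matrix.smul_apply, smul_eq_mul, Fin.sum_univ_three, AA]
  cases a <;> cases b <;> simp only [clff, cltt, clft, cltf] <;> fin_cases P <;>
    simp [PM, mm, al] <;> nlinarith [h3]

lemma gg_eq {κ : Type} (hx hz : κ → ℝ) (q : κ) :
    ∑ k, gg hx hz q k • BB k = hx q • PM 1 + hz q • PM 2 := by
  have h3 : Real.sqrt 3 * Real.sqrt 3 = 3 := Real.mul_self_sqrt (by norm_num)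
  ext a b
  rw [Matrix.sum_apply]
  simp only [Matrix.smul_apply, Matrix.add_apply, smul_eq_mul, Fin.sum_univ_three, BB]
  cases a <;> cases b <;> simp only [clff, cltt, clft, cltf] <;>
    simp [PM, gg, be] <;> ring_nf <;> (try simp only [Real.sq_sqrt (show (0:ℝ) ≤ 3 by norm_num)]) <;>
    ring

lemma sum_mm (P : Fin 3) : ∑ i, mm P i = if P = 0 then 3 else 0 := by
  fin_cases P <;> simp [mm, Fin.sum_univ_three] <;> norm_num

/-! ### Operators on logical bits -/

variable {ι : Type} [Fintype ι] [DecidableEq ι]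

lemma locL_lin {α : Type} (s : Finset α) (I : ι) (a : α → ℝ) (A : α → Matrix Bool Bool ℝ)
    (φ : F2 ι) : locL I (∑ i ∈ s, a i • A i) φ = ∑ i ∈ s, a i • locL I (A i) φ := by
  funext j t
  simp only [locL, Matrix.sum_apply, Matrix.smul_apply, smul_eq_mul, Finset.sum_apply,
    Pi.smul_apply, Finset.sum_mul, Finset.mul_sum]
  rw [Finset.sum_comm]
  refine Finset.sum_congr rfl fun b _ => Finset.sum_congr rfl fun c _ => ?_
  ring

lemma locL_sum {α : Type} (s : Finset α) (I : ι) (A : Matrix Bool Bool ℝ) (φ : α → F2 ι) :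
    locL I A (∑ i ∈ s, φ i) = ∑ i ∈ s, locL I A (φ i) := by
  funext j t
  simp only [locL, Finset.sum_apply, Pi.smul_apply, smul_eq_mul, Finset.mul_sum]
  rw [Finset.sum_comm]

lemma locL_smul (I : ι) (A : Matrix Bool Bool ℝ) (a : ℝ) (φ : F2 ι) :
    locL I A (a • φ) = a • locL I A φ := by
  funext j t
  simp only [locL, Finset.sum_apply, Pi.smul_apply, smul_eq_mul, Finset.mul_sum]
  refine Finset.sum_congr rfl fun b _ => ?_
  ring

lemma ip2_add_right (φ χ ξ : F2 ι) : ip2 φ (χ + ξ) = ip2 φ χ + ip2 φ ξ := by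
  simp [ip2, ip_add_right, Finset.sum_add_distrib]

lemma ip2_smul_right (a : ℝ) (φ χ : F2 ι) : ip2 φ (a • χ) = a * ip2 φ χ := by
  simp [ip2, ip_smul_right, Finset.mul_sum]

lemma ip2_sum_right {α : Type} (s : Finset α) (φ : F2 ι) (χ : α → F2 ι) :
    ip2 φ (∑ i ∈ s, χ i) = ∑ i ∈ s, ip2 φ (χ i) := by
  classical
  induction s using Finset.induction_on with
  | empty => simp [ip2, ip]
  | insert a s ha ih => rw [Finset.sum_insert ha, Finset.sum_insert ha, ip2_add_right, ih]

lemma ip2_self (φ : F2 ι) : ip2 φ φ = sq2 φ := by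
  simp [ip2, sq2, sq_eq_ip]

/-- the pair expectation -/
def ee (φ χ : F2 ι) (I J : ι) (P Q : Fin 3) : ℝ := ip2 φ (locL I (PM P) (locL J (PM Q) χ))

lemma PM_zero : PM 0 = 1 := by
  ext a b
  simp [PM, Matrix.one_apply]

lemma locL_one (I : ι) (φ : F2 ι) : locL I 1 φ = φ := by
  funext j
  rw [locL, Finset.sum_eq_single (j I)]
  · simp
  · intro b _ hb
    simp [Matrix.one_apply_ne (Ne.symm hb)]
  · simp

lemma ee_zero (φ χ : F2 ι) (I J : ι) : ee φ χ I J 0 0 = ip2 φ χ := by
  rw [ee, PM_zero, locL_one, locL_one]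

lemma ee_eq (φ χ : F2 ι) (I J : ι) (P Q : Fin 3) : ee φ χ I J P Q =
    ∑ i, ∑ j, (mm P i * mm Q j) * ip2 φ (locL I (AA i) (locL J (AA j) χ)) := by
  rw [ee, PM_eq Q, locL_lin, locL_sum, PM_eq P]
  simp only [locL_smul, locL_lin]
  rw [ip2_sum_right, Finset.sum_comm]
  refine Finset.sum_congr rfl fun j _ => ?_
  rw [ip2_smul_right, ip2_sum_right, Finset.mul_sum]
  refine Finset.sum_congr rfl fun i _ => ?_
  rw [ip2_smul_right]
  ring

/-- column of a state -/
def col (s : ι → Bool) (φ : F2 ι) : St ι Bool := fun j => φ j s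

lemma col_locL (s : ι → Bool) (I : ι) (A : Matrix Bool Bool ℝ) (φ : F2 ι) :
    col s (locL I A φ) = loc I A (col s φ) := by
  funext j
  simp [col, locL, loc_apply]

lemma ip2_col (φ χ : F2 ι) : ip2 φ χ = ∑ s, ip (col s φ) (col s χ) := by
  simp only [ip2, ip, col]
  rw [Finset.sum_comm]

lemma ee_col (φ χ : F2 ι) (I J : ι) (P Q : Fin 3) : ee φ χ I J P Q =
    ∑ s, ip (col s φ) (loc I (PM P) (loc J (PM Q) (col s χ))) := by
  rw [ee, ip2_col]
  simp only [col_locL]

lemma ee_comm (φ χ : F2 ι) {I J : ι} (h : I ≠ J) (P Q : Fin 3) :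
    ee φ χ I J P Q = ee φ χ J I Q P := by
  rw [ee_col, ee_col]
  exact Finset.sum_congr rfl fun s _ => by rw [loc_comm h]

end

end Vale.Agent.P370.H337
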