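import Vale.Agent.P370.H337.Loc

/-! Three spins: the orthogonal basis adapted to total spin 1/2 (logical bit, gauge bit) and
total spin 3/2. -/

namespace Vale.Agent.P370.H337

open Finset Function

noncomputable section

/-- Configurations of three spins; also the labels (flag, logical bit, gauge bit) of the adapted
basis. -/
abbrev B3 : Type := Bool × Bool × Bool

/-- the three bits -/
def bit (i : Fin 3) (x : B3) : Bool := ![x.1, x.2.1, x.2.2] i

/-- flip the `i`-th bit -/
def flp (i : Fin 3) (x : B3) : B3 :=
  ![(!x.1, x.2.1, x.2.2), (x.1, !x.2.1, x.2.2), (x.1, x.2.1, !x.2.2)] i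

/-- integer vectors of the adapted basis (unnormalised) -/
def uv (a x : B3) : ℤ :=
  match a with
  | (false, false, s) =>
      if x = (s, false, true) then 1 else if x = (s, true, false) then -1 else 0
  | (false, true, false) =>
      if x = (true, false, false) then 2 else
        if x = (false, false, true) then -1 else if x = (false, true, false) then -1 else 0
  | (false, true, true) =>
      if x = (false, true, true) then -2 else
        if x = (true, false, true) then 1 else if x = (true, true, false) then 1 else 0
  | (true, false, s) => if x = (s, s, s) then 1 else 0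
  | (true, true, false) =>
      if x = (true, false, false) ∨ x = (false, true, false) ∨ x = (false, false, true) then 1
        else 0
  | (true, true, true) =>
      if x = (false, true, true) ∨ x = (true, false, true) ∨ x = (true, true, false) then 1
        else 0

/-- squared norms of the integer vectors -/
def un (a : B3) : ℤ :=
  match a with
  | (false, false, _) => 2
  | (false, true, _) => 6
  | (true, false, _) => 1
  | (true, true, _) => 3

/-- integer matrix of `X` at spin `i` -/
def zX (i : Fin 3) (x y : B3) : ℤ := if y = flp i x then 1 else 0
/-- integer matrix of `Z` at spin `i` -/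
def zZ (i : Fin 3) (x y : B3) : ℤ := if y = x then (if bit i x then -1 else 1) else 0
/-- integer matrix of `ε = XZ` at spin `i` -/
def zE (i : Fin 3) (x y : B3) : ℤ := if y = flp i x then (if bit i x then 1 else -1) else 0

/-- exchange of the two spins different from `k` -/
def swb (k : Fin 3) (x : B3) : B3 :=
  ![(x.1, x.2.2, x.2.1), (x.2.2, x.2.1, x.1), (x.2.1, x.1, x.2.2)] k

/-- integer matrix of the exchange of the two spins different from `k` -/
def zS (k : Fin 3) (x y : B3) : ℤ := if y = swb k x then 1 else 0

/-- logical integer matrices `α` : `(A_i)_{jj'} = α_i j j' / sqrt (n_j n_j')` -/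
def al (i : Fin 3) (j j' : Bool) : ℤ :=
  ![bif j then (bif j' then -2 else 0) else (bif j' then 0 else 2),
    bif j then (bif j' then 4 else -2) else (bif j' then -2 else 0),
    bif j then (bif j' then 4 else 2) else (bif j' then 2 else 0)] i

/-- integer matrices of the exchanges on the logical qubit -/
def be (i : Fin 3) (j j' : Bool) : ℤ :=
  ![bif j then (bif j' then 6 else 0) else (bif j' then 0 else -2),
    bif j then (bif j' then -3 else 3) else (bif j' then 3 else 1),
    bif j then (bif j' then -3 else -3) else (bif j' then -3 else 1)] i

/-- gauge matrices -/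
def gX (s t : Bool) : ℤ := if t = !s then 1 else 0
/-- gauge matrices -/
def gZ (s t : Bool) : ℤ := if t = s then (if s then -1 else 1) else 0
/-- gauge matrices -/
def gE (s t : Bool) : ℤ := if t = !s then (if s then 1 else -1) else 0

lemma uv_orth : ∀ a b : B3, ∑ x, uv a x * uv b x = if a = b then un a else 0 := by decide

lemma un_orth : ∀ x y : B3, ∑ a, (6 / un a) * (uv a x * uv a y) = if x = y then 6 else 0 := by
  decide

lemma zX_form : ∀ (i : Fin 3) (j s j' s' : Bool),
    ∑ x, ∑ y, uv (false, j, s) x * zX i x y * uv (false, j', s') y = al i j j' * gX s s' := by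
  decide

lemma zZ_form : ∀ (i : Fin 3) (j s j' s' : Bool),
    ∑ x, ∑ y, uv (false, j, s) x * zZ i x y * uv (false, j', s') y = al i j j' * gZ s s' := by
  decide

lemma zE_form : ∀ (i : Fin 3) (j s j' s' : Bool),
    ∑ x, ∑ y, uv (false, j, s) x * zE i x y * uv (false, j', s') y = al i j j' * gE s s' := by
  decide

lemma zS_form : ∀ (k : Fin 3) (j s j' s' : Bool),
    ∑ x, ∑ y, uv (false, j, s) x * zS k x y * uv (false, j', s') y =
      be k j j' * (if s = s' then 1 else 0) := by
  decide

lemma zS_sum : ∀ (a b : B3),
    ∑ x, ∑ y, uv a x * (zS 0 x y + zS 1 x y + zS 2 x y) * uv b y =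
      if a = b then (if a.1 then 3 * un a else 0) else 0 := by
  decide

end

end Vale.Agent.P370.H337
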