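import Vale.Agent.P370.H337.Gauge

/-! The star operator `Y = ∑_q SWAP_{0 q}`: lowest eigenspace and gap. -/

namespace Vale.Agent.P370.H337

open Finset Function

noncomputable section

variable {κ : Type} [Fintype κ] [DecidableEq κ]

/-- exchanges with the centre -/
def YY : St (Option κ) Bool →ₗ[ℝ] St (Option κ) Bool := ∑ q : κ, act (Equiv.swap none (some q))

/-- `∑_{q < q'} (1 - SWAP)` -/
def DD : St (Option κ) Bool →ₗ[ℝ] St (Option κ) Bool :=
  (1 / 2 : ℝ) • ∑ q : κ, ∑ q' : κ, (LinearMap.id - act (Equiv.swap (some q) (some q')))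

lemma YY_apply (ψ : St (Option κ) Bool) :
    YY ψ = ∑ q : κ, act (Equiv.swap none (some q)) ψ := by
  simp [YY]

lemma DD_apply (ψ : St (Option κ) Bool) :
    DD ψ = (1 / 2 : ℝ) • ∑ q : κ, ∑ q' : κ, (ψ - act (Equiv.swap (some q) (some q')) ψ) := by
  simp [DD]

variable (κ) in
/-- number of outer spins -/
def NN : ℝ := (Fintype.card κ : ℝ)

lemma YY_YY (ψ : St (Option κ) Bool) :
    YY (YY ψ) = NN κ • ψ + (NN κ - 1) • YY ψ - DD ψ := by
  have h1 : YY (YY ψ) = ∑ q : κ, ∑ q' : κ,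
      act (Equiv.swap none (some q)) (act (Equiv.swap none (some q')) ψ) := by
    rw [YY_apply (YY ψ), YY_apply ψ]
    refine Finset.sum_congr rfl fun q _ => ?_
    rw [map_sum]
  have h2 : YY (YY ψ) = ∑ q : κ, ∑ q' : κ,
      act (Equiv.swap none (some q')) (act (Equiv.swap none (some q)) ψ) := by
    rw [h1, Finset.sum_comm]
  have h3 : ∀ q q' : κ,
      act (Equiv.swap none (some q)) (act (Equiv.swap none (some q')) ψ) +
        act (Equiv.swap none (some q')) (act (Equiv.swap none (some q)) ψ) =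
      act (Equiv.swap none (some q)) ψ + act (Equiv.swap none (some q')) ψ -
        (ψ - act (Equiv.swap (some q) (some q')) ψ) +
        (if q = q' then (2 : ℝ) • ψ - (2 : ℝ) • act (Equiv.swap none (some q)) ψ else 0) := by
    intro q q'
    by_cases h : q = q'
    · subst h
      rw [if_pos rfl, ← act_mul, Equiv.swap_mul_self, act_one, Equiv.swap_self]
      have : act (Equiv.refl (Option κ)) ψ = ψ := rfl
      rw [this]
      module
    · rw [if_neg h, three none (some q) (some q') (by simp) (by simp) (by simpa using h)]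
      abel
  have h4 : (2 : ℝ) • YY (YY ψ) = (2 : ℝ) • (NN κ • ψ + (NN κ - 1) • YY ψ - DD ψ) := by
    have h5 : (2 : ℝ) • YY (YY ψ) = YY (YY ψ) + YY (YY ψ) := two_smul _ _
    rw [h5]
    nth_rewrite 1 [h1]
    rw [h2, ← Finset.sum_add_distrib]
    simp_rw [← Finset.sum_add_distrib, h3]
    simp only [Finset.sum_add_distrib, Finset.sum_sub_distrib, Finset.sum_ite_eq,
      Finset.mem_univ, if_true, Finset.sum_const, Finset.card_univ]
    rw [← YY_apply]
    have h6 : ∑ x : κ, Fintype.card κ • act (Equiv.swap none (some x)) ψ =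
        NN κ • YY ψ := by
      rw [YY_apply, Finset.smul_sum]
      refine Finset.sum_congr rfl fun x _ => ?_
      rw [NN, Nat.cast_smul_eq_nsmul]
    have h7 : ∑ x : κ, (2 : ℝ) • act (Equiv.swap none (some x)) ψ = (2 : ℝ) • YY ψ := by
      rw [YY_apply, Finset.smul_sum]
    have h8 : DD ψ = (1 / 2 : ℝ) • (∑ q : κ, ∑ q' : κ, ψ) -
        (1 / 2 : ℝ) • (∑ q : κ, ∑ q' : κ, act (Equiv.swap (some q) (some q')) ψ) := by
      rw [DD_apply, ← smul_sub]
      simp only [Finset.sum_sub_distrib]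
    rw [h6, h7, h8]
    simp only [Finset.sum_const, Finset.card_univ, ← Nat.cast_smul_eq_nsmul ℝ]
    unfold NN
    module
  have h9 := congrArg (fun φ => (1 / 2 : ℝ) • φ) h4
  simpa [smul_smul] using h9

lemma ip_sum_left {α : Type} (s : Finset α) (f : α → St (Option κ) Bool)
    (φ : St (Option κ) Bool) : ip (∑ a ∈ s, f a) φ = ∑ a ∈ s, ip (f a) φ := by
  classical
  induction s using Finset.induction_on with
  | empty => simp [ip]
  | insert a s ha ih => rw [Finset.sum_insert ha, Finset.sum_insert ha, ip_add_left, ih]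

lemma ip_sum_right {α : Type} (s : Finset α) (f : α → St (Option κ) Bool)
    (φ : St (Option κ) Bool) : ip φ (∑ a ∈ s, f a) = ∑ a ∈ s, ip φ (f a) := by
  rw [ip_comm, ip_sum_left]
  exact Finset.sum_congr rfl fun a _ => ip_comm _ _

lemma ip_sub_left (ψ φ χ : St (Option κ) Bool) : ip (ψ - φ) χ = ip ψ χ - ip φ χ := by
  simp [ip, sub_mul, Finset.sum_sub_distrib]

lemma ip_sub_right (ψ φ χ : St (Option κ) Bool) : ip χ (ψ - φ) = ip χ ψ - ip χ φ := by
  simp [ip, mul_sub, Finset.sum_sub_distrib]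

lemma YY_symm (ψ φ : St (Option κ) Bool) : ip (YY ψ) φ = ip ψ (YY φ) := by
  rw [YY_apply, YY_apply, ip_sum_left, ip_sum_right]
  exact Finset.sum_congr rfl fun q _ => ip_swap _ _ _ _

/-! ### Symmetrisation -/

/-- permutations of the outer spins -/
def lft (σ : Equiv.Perm κ) : Equiv.Perm (Option κ) := Equiv.optionCongr σ

omit [Fintype κ] [DecidableEq κ] in
lemma lft_mul (σ τ : Equiv.Perm κ) : lft (σ * τ) = lft σ * lft τ := by
  ext x
  cases x <;> simp [lft]

omit [Fintype κ] in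
lemma lft_swap (q q' : κ) : lft (Equiv.swap q q') = Equiv.swap (some q) (some q') :=
  Equiv.optionCongr_swap q q'

lemma YY_lft (σ : Equiv.Perm κ) (ψ : St (Option κ) Bool) :
    YY (act (lft σ) ψ) = act (lft σ) (YY ψ) := by
  rw [YY_apply, YY_apply, map_sum]
  refine Fintype.sum_equiv σ.symm _ _ ?_
  intro q
  rw [← act_mul, ← act_mul]
  congr 1
  have h : lft σ * Equiv.swap none (some (σ.symm q)) * (lft σ)⁻¹ = Equiv.swap none (some q) := by
    rw [← Equiv.swap_apply_apply]
    simp [lft]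
  rw [← h]
  simp

/-- symmetrisation over the outer spins -/
def PS (ψ : St (Option κ) Bool) : St (Option κ) Bool :=
  ((Fintype.card (Equiv.Perm κ) : ℝ)⁻¹) • ∑ σ : Equiv.Perm κ, act (lft σ) ψ

lemma card_perm_pos : (0 : ℝ) < (Fintype.card (Equiv.Perm κ) : ℝ) := by
  exact_mod_cast Fintype.card_pos

lemma act_PS (τ : Equiv.Perm κ) (ψ : St (Option κ) Bool) : act (lft τ) (PS ψ) = PS ψ := by
  rw [PS, map_smul, map_sum]
  congr 1
  refine Fintype.sum_equiv (Equiv.mulLeft τ) _ _ ?_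
  intro σ
  rw [← act_mul, ← lft_mul]
  rfl

lemma YY_PS (ψ : St (Option κ) Bool) : YY (PS ψ) = PS (YY ψ) := by
  rw [PS, PS, map_smul, map_sum]
  congr 1
  exact Finset.sum_congr rfl fun σ _ => YY_lft σ ψ

lemma PS_of_sym {ψ : St (Option κ) Bool} (h : ∀ σ, act (lft σ) ψ = ψ) : PS ψ = ψ := by
  rw [PS]
  simp_rw [h]
  rw [Finset.sum_const, Finset.card_univ, ← Nat.cast_smul_eq_nsmul ℝ, smul_smul,
    inv_mul_cancel₀ card_perm_pos.ne', one_smul]

lemma PS_PS (ψ : St (Option κ) Bool) : PS (PS ψ) = PS ψ := PS_of_sym fun σ => act_PS σ ψ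

lemma PS_symm (ψ φ : St (Option κ) Bool) : ip (PS ψ) φ = ip ψ (PS φ) := by
  rw [PS, PS, ip_smul_left, ip_smul_right, ip_sum_left, ip_sum_right]
  congr 1
  refine Fintype.sum_equiv (Equiv.inv _) _ _ ?_
  intro σ
  rw [ip_act]
  congr 2

lemma PS_add (ψ φ : St (Option κ) Bool) : PS (ψ + φ) = PS ψ + PS φ := by
  simp [PS, Finset.sum_add_distrib]

lemma PS_sub (ψ φ : St (Option κ) Bool) : PS (ψ - φ) = PS ψ - PS φ := by
  simp only [PS, map_sub, Finset.sum_sub_distrib, smul_sub]

lemma DD_of_sym {ψ : St (Option κ) Bool} (h : ∀ σ, act (lft σ) ψ = ψ) : DD ψ = 0 := by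
  rw [DD_apply]
  simp_rw [← lft_swap, h, sub_self]
  simp

/-- Projection onto the lowest eigenspace. -/
def QQ (ψ : St (Option κ) Bool) : St (Option κ) Bool :=
  ((NN κ + 1)⁻¹) • (NN κ • PS ψ - YY (PS ψ))

omit [DecidableEq κ] in
lemma NN_nonneg : 0 ≤ NN κ := by
  unfold NN
  positivity

lemma YY_QQ (ψ : St (Option κ) Bool) : YY (QQ ψ) = -QQ ψ := by
  rw [QQ, map_smul, map_sub, map_smul, YY_YY, DD_of_sym fun σ => act_PS σ ψ]
  module

lemma act_QQ (σ : Equiv.Perm κ) (ψ : St (Option κ) Bool) : act (lft σ) (QQ ψ) = QQ ψ := by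
  rw [QQ, map_smul, map_sub, map_smul, ← YY_lft, act_PS]

lemma YY_PS' (ψ : St (Option κ) Bool) :
    YY (PS ψ) = NN κ • PS ψ - (NN κ + 1) • QQ ψ := by
  have h : NN κ + 1 ≠ 0 := by
    have := NN_nonneg (κ := κ)
    positivity
  rw [QQ, smul_smul, mul_inv_cancel₀ h]
  module

lemma QQ_symm (ψ φ : St (Option κ) Bool) : ip (QQ ψ) φ = ip ψ (QQ φ) := by
  rw [QQ, QQ, ip_smul_left, ip_smul_right, ip_sub_left, ip_sub_right, ip_smul_left, ip_smul_right,
    PS_symm, YY_symm, PS_symm, YY_PS]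

lemma PS_QQ (ψ : St (Option κ) Bool) : PS (QQ ψ) = QQ ψ := PS_of_sym fun σ => act_QQ σ ψ

lemma QQ_of {ψ : St (Option κ) Bool} (h1 : ∀ σ, act (lft σ) ψ = ψ) (h2 : YY ψ = -ψ) :
    QQ ψ = ψ := by
  have h : NN κ + 1 ≠ 0 := by
    have := NN_nonneg (κ := κ)
    positivity
  rw [QQ, PS_of_sym h1, h2]
  have : NN κ • ψ - -ψ = (NN κ + 1) • ψ := by module
  rw [this, smul_smul, inv_mul_cancel₀ h, one_smul]

lemma QQ_QQ (ψ : St (Option κ) Bool) : QQ (QQ ψ) = QQ ψ :=
  QQ_of (fun σ => act_QQ σ ψ) (YY_QQ ψ)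

/-! ### A lowest eigenvector -/

/-- A vector of the lowest eigenspace. -/
def kv : St (Option κ) Bool := fun s =>
  if (Finset.univ.filter fun x => s x = true).card = 1 then (if s none then NN κ else -1) else 0

omit [DecidableEq κ] in
lemma card_comp (s : Option κ → Bool) (σ : Equiv.Perm (Option κ)) :
    (Finset.univ.filter fun x => (s ∘ σ) x = true).card =
      (Finset.univ.filter fun x => s x = true).card := by
  refine Finset.card_bij (fun x _ => σ x) ?_ ?_ ?_
  · intro x hx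
    simpa using hx
  · intro x _ y _ h
    exact σ.injective h
  · intro y hy
    exact ⟨σ.symm y, by simpa using hy, by simp⟩

omit [DecidableEq κ] in
lemma act_kv (σ : Equiv.Perm κ) : act (lft σ) (kv : St (Option κ) Bool) = kv := by
  funext s
  rw [act_apply, kv, kv, card_comp]
  rfl

lemma YY_kv : YY (kv : St (Option κ) Bool) = -kv := by
  funext s
  rw [YY_apply, Finset.sum_apply]
  simp only [act_apply, kv, card_comp, Pi.neg_apply]
  by_cases h : (Finset.univ.filter fun x => s x = true).card = 1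
  · simp only [h, if_true, Function.comp_apply, Equiv.swap_apply_left]
    have h1 : ∀ q : κ, (if s (some q) = true then NN κ else (-1 : ℝ)) =
        -1 + (NN κ + 1) * (if s (some q) = true then 1 else 0) := by
      intro q
      split_ifs <;> ring
    simp_rw [h1]
    rw [Finset.sum_add_distrib, Finset.sum_const, Finset.card_univ, ← Finset.mul_sum]
    have h2 : (∑ q : κ, (if s (some q) = true then (1 : ℝ) else 0)) +
        (if s none = true then (1 : ℝ) else 0) = 1 := by
      have h3 : ((Finset.univ.filter fun x => s x = true).card : ℝ) = 1 := by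
        rw [h]
        norm_num
      rw [Finset.card_filter, Nat.cast_sum, Fintype.sum_option] at h3
      push_cast at h3
      linarith
    have h4 : (∑ q : κ, (if s (some q) = true then (1 : ℝ) else 0)) =
        1 - (if s none = true then (1 : ℝ) else 0) := by linarith
    rw [h4, nsmul_eq_mul]
    change NN κ * -1 + _ = _
    split_ifs <;> ring
  · simp [h]

lemma sq_kv (h : 0 < NN κ) : 0 < sq (kv : St (Option κ) Bool) := by
  have h1 : (kv : St (Option κ) Bool) (fun x => x.isNone) ^ 2 ≤ sq (kv : St (Option κ) Bool) :=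
    Finset.single_le_sum (f := fun s => (kv : St (Option κ) Bool) s ^ 2)
      (fun _ _ => sq_nonneg _) (Finset.mem_univ _)
  have h2 : (kv : St (Option κ) Bool) (fun x => x.isNone) = NN κ := by
    have h3 : (Finset.univ.filter fun x : Option κ => x.isNone = true) = {none} := by
      ext x
      cases x <;> simp
    have h4 : (Finset.univ.filter fun x : Option κ => x.isNone = true).card = 1 := by
      rw [h3, Finset.card_singleton]
    rw [kv, if_pos h4]
    simp
  rw [h2] at h1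
  have : 0 < NN κ ^ 2 := by positivity
  linarith

/-! ### The gap -/

lemma sqrt_sq_sum {α : Type} (s : Finset α) (f : α → St (Option κ) Bool) :
    Real.sqrt (sq (∑ a ∈ s, f a)) ≤ ∑ a ∈ s, Real.sqrt (sq (f a)) := by
  classical
  induction s using Finset.induction_on with
  | empty => simp [sq]
  | insert a s ha ih =>
    rw [Finset.sum_insert ha, Finset.sum_insert ha]
    exact (sqrt_sq_add _ _).trans (by linarith)

lemma sq_smul (c : ℝ) (ψ : St (Option κ) Bool) : sq (c • ψ) = c ^ 2 * sq ψ := by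
  simp [sq, mul_pow, Finset.mul_sum]

lemma sq_sub_act (τ : Equiv.Perm (Option κ)) (ψ : St (Option κ) Bool) :
    sq (ψ - act τ ψ) = 2 * sq ψ - 2 * ip ψ (act τ ψ) := by
  have h : ψ - act τ ψ = ψ + (-1 : ℝ) • act τ ψ := by module
  rw [h, sq_add, ip_smul_right, sq_smul, sq_act]
  ring

lemma ip_DD (ψ : St (Option κ) Bool) :
    ip ψ (DD ψ) = (1 / 4) * ∑ q : κ, ∑ q' : κ,
      sq (ψ - act (Equiv.swap (some q) (some q')) ψ) := by
  rw [DD_apply, ip_smul_right, ip_sum_right]
  simp_rw [ip_sum_right, ip_sub_right, sq_sub_act, ← sq_eq_ip]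
  rw [Finset.mul_sum, Finset.mul_sum]
  refine Finset.sum_congr rfl fun q _ => ?_
  rw [Finset.mul_sum, Finset.mul_sum]
  refine Finset.sum_congr rfl fun q' _ => ?_
  ring

lemma ip_DD_nonneg (ψ : St (Option κ) Bool) : 0 ≤ ip ψ (DD ψ) := by
  rw [ip_DD]
  have : 0 ≤ ∑ q : κ, ∑ q' : κ, sq (ψ - act (Equiv.swap (some q) (some q')) ψ) :=
    Finset.sum_nonneg fun q _ => Finset.sum_nonneg fun q' _ => sq_nonneg' _
  linarith

lemma sq_swap_le (ψ : St (Option κ) Bool) (q q' : κ) :
    sq (ψ - act (Equiv.swap (some q) (some q')) ψ) ≤ 2 * ip ψ (DD ψ) := by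
  by_cases h : q = q'
  · subst h
    have h0 : act (Equiv.swap (some q) (some q)) ψ = ψ := by
      rw [Equiv.swap_self]
      rfl
    rw [h0, sub_self]
    have : sq (0 : St (Option κ) Bool) = 0 := by simp [sq]
    rw [this]
    have := ip_DD_nonneg ψ
    linarith
  · rw [ip_DD, ← Fintype.sum_prod_type']
    have h1 : ({(q, q'), (q', q)} : Finset (κ × κ)) ⊆ Finset.univ := Finset.subset_univ _
    have h2 := Finset.sum_le_sum_of_subset_of_nonneg h1
      (f := fun p : κ × κ => sq (ψ - act (Equiv.swap (some p.1) (some p.2)) ψ))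
      (fun p _ _ => sq_nonneg' _)
    rw [Finset.sum_pair (by simp; intro h3; exact absurd h3 h)] at h2
    simp only at h2
    rw [Equiv.swap_comm (some q') (some q)] at h2
    linarith

lemma card_support_lft (σ : Equiv.Perm κ) : (lft σ).support.card ≤ Fintype.card κ := by
  have h : (lft σ).support ⊆ (Finset.univ : Finset κ).map ⟨some, Option.some_injective κ⟩ := by
    intro x hx
    rw [Equiv.Perm.mem_support] at hx
    cases x with
    | none => simp [lft] at hx
    | some q => simp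
  have := Finset.card_le_card h
  simpa using this

lemma sq_sub_PS_le (ψ : St (Option κ) Bool) :
    sq (ψ - PS ψ) ≤ 2 * NN κ ^ 2 * ip ψ (DD ψ) := by
  set δ := Real.sqrt (2 * ip ψ (DD ψ)) with hδ
  have hδ0 : 0 ≤ δ := Real.sqrt_nonneg _
  have hδ2 : δ ^ 2 = 2 * ip ψ (DD ψ) := Real.sq_sqrt (by have := ip_DD_nonneg ψ; linarith)
  have h1 : ∀ σ : Equiv.Perm κ, Real.sqrt (sq (ψ - act (lft σ) ψ)) ≤ NN κ * δ := by
    intro σ
    refine sub_act_le ψ δ hδ0 {x | x ≠ none} ?_ (Fintype.card κ) (lft σ) (card_support_lft σ) ?_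
    · intro a ha b hb
      cases a with
      | none => simp at ha
      | some a =>
        cases b with
        | none => simp at hb
        | some b => exact Real.sqrt_le_sqrt (sq_swap_le ψ a b)
    · intro a ha
      cases a with
      | none => simp [lft] at ha
      | some a => simp
  have h2 : ψ - PS ψ = ((Fintype.card (Equiv.Perm κ) : ℝ)⁻¹) •
      ∑ σ : Equiv.Perm κ, (ψ - act (lft σ) ψ) := by
    rw [Finset.sum_sub_distrib, Finset.sum_const, Finset.card_univ, ← Nat.cast_smul_eq_nsmul ℝ,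
      smul_sub, smul_smul, inv_mul_cancel₀ card_perm_pos.ne', one_smul, PS]
  have h3 : Real.sqrt (sq (ψ - PS ψ)) ≤ NN κ * δ := by
    rw [h2, sq_smul, Real.sqrt_mul (sq_nonneg _), Real.sqrt_sq (by
      have := card_perm_pos (κ := κ); positivity)]
    have h4 : Real.sqrt (sq (∑ σ : Equiv.Perm κ, (ψ - act (lft σ) ψ))) ≤
        (Fintype.card (Equiv.Perm κ) : ℝ) * (NN κ * δ) := by
      refine (sqrt_sq_sum _ _).trans ?_
      refine (Finset.sum_le_sum fun σ _ => h1 σ).trans ?_
      rw [Finset.sum_const, Finset.card_univ, nsmul_eq_mul]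
    have h5 := card_perm_pos (κ := κ)
    calc _ ≤ (Fintype.card (Equiv.Perm κ) : ℝ)⁻¹ *
        ((Fintype.card (Equiv.Perm κ) : ℝ) * (NN κ * δ)) :=
          mul_le_mul_of_nonneg_left h4 (by positivity)
      _ = NN κ * δ := by field_simp
  have h4 : sq (ψ - PS ψ) ≤ (NN κ * δ) ^ 2 := by
    rw [← Real.sqrt_le_left (mul_nonneg NN_nonneg hδ0)]
    exact h3
  rw [mul_pow, hδ2] at h4
  linarith

/-- **The gap of the star.** -/
theorem star_gap (ψ : St (Option κ) Bool) :
    (1 / (2 * (NN κ + 1) ^ 3)) * sq (ψ - QQ ψ) ≤ ip ψ (YY ψ) + sq ψ := by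
  have hN := NN_nonneg (κ := κ)
  set c := QQ ψ with hc
  set a := PS ψ - QQ ψ with ha
  set b := ψ - PS ψ with hb
  have hψ : ψ = c + (a + b) := by
    rw [hc, ha, hb]
    abel
  have hPa : PS a = a := by rw [ha, PS_sub, PS_PS, PS_QQ]
  have hPb : PS b = 0 := by rw [hb, PS_sub, PS_PS, sub_self]
  have hPc : PS c = c := PS_QQ ψ
  have hYc : YY c = (-1 : ℝ) • c := by rw [hc, YY_QQ]; module
  have hYa : YY a = NN κ • a := by
    rw [ha, map_sub, YY_PS', YY_QQ]
    module
  have hPYb : PS (YY b) = 0 := by rw [← YY_PS, hPb, map_zero]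
  have orth : ∀ x y : St (Option κ) Bool, PS x = x → PS y = 0 → ip x y = 0 := by
    intro x y hx hy
    rw [← hx, PS_symm, hy]
    simp [ip]
  have hca : ip c a = 0 := by
    have h1 : ip (QQ ψ) (PS ψ) = ip (QQ ψ) ψ := by rw [← PS_symm, PS_QQ]
    have h2 : ip (QQ ψ) (QQ ψ) = ip (QQ ψ) ψ := by rw [QQ_symm, QQ_QQ, ip_comm]
    rw [hc, ha, ip_sub_right, h1, h2, sub_self]
  have hcb : ip c b = 0 := orth c b hPc hPb
  have hab : ip a b = 0 := orth a b hPa hPb
  have haYb : ip a (YY b) = 0 := orth a _ hPa hPYb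
  have hcYb : ip c (YY b) = 0 := orth c _ hPc hPYb
  have hbYb : (NN κ + 1) * (ip b (YY b) + sq b) ≥ ip b (DD b) := by
    have h1 : ip b (YY (YY b)) = NN κ * sq b + (NN κ - 1) * ip b (YY b) - ip b (DD b) := by
      rw [YY_YY, ip_sub_right, ip_add_right, ip_smul_right, ip_smul_right, sq_eq_ip]
    rw [← YY_symm, ← sq_eq_ip] at h1
    have h2 : sq (YY b + b) = sq (YY b) + 2 * ip b (YY b) + sq b := by
      rw [sq_add, ip_comm]
    have h3 := sq_nonneg' (YY b + b)
    nlinarith
  have hDb : sq b ≤ 2 * NN κ ^ 2 * ip b (DD b) := by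
    have := sq_sub_PS_le b
    rwa [hPb, sub_zero] at this
  have hsqψ : sq ψ = sq c + (sq a + sq b) := by
    rw [hψ, sq_add, sq_add, ip_add_right, hca, hcb, hab]
    ring
  have hYψ : ip ψ (YY ψ) = -sq c + NN κ * sq a + ip b (YY b) := by
    rw [hψ]
    simp only [map_add, ip_add_left, ip_add_right]
    rw [hYc, hYa, hcYb, haYb]
    simp only [ip_smul_right]
    rw [hca, ip_comm a c, hca, ip_comm b c, hcb, ip_comm b a, hab, sq_eq_ip, sq_eq_ip]
    ring
  have hw : sq (ψ - QQ ψ) = sq a + sq b := by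
    have : ψ - QQ ψ = a + b := by rw [ha, hb]; abel
    rw [this, sq_add, hab]
    ring
  rw [hw, hYψ, hsqψ]
  have hDD := ip_DD_nonneg b
  have ha0 := sq_nonneg' a
  have hb0 := sq_nonneg' b
  have hM : 0 < 2 * (NN κ + 1) ^ 3 := by positivity
  rw [div_mul_eq_mul_div, one_mul, div_le_iff₀ hM]
  have e1 : sq a ≤ (NN κ + 1) * sq a * (2 * (NN κ + 1) ^ 3) := by
    have : 1 ≤ (NN κ + 1) * (2 * (NN κ + 1) ^ 3) := by
      have h1 : (1 : ℝ) ≤ NN κ + 1 := by linarith
      have h2 : (1 : ℝ) ≤ (NN κ + 1) ^ 3 := one_le_pow₀ h1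
      nlinarith
    nlinarith
  have e2 : sq b ≤ (ip b (YY b) + sq b) * (2 * (NN κ + 1) ^ 3) := by
    have h1 : sq b ≤ 2 * (NN κ + 1) ^ 2 * ip b (DD b) := by
      refine hDb.trans ?_
      have : NN κ ^ 2 ≤ (NN κ + 1) ^ 2 := by nlinarith
      nlinarith
    have h2 : 2 * (NN κ + 1) ^ 2 * ip b (DD b) ≤
        2 * (NN κ + 1) ^ 2 * ((NN κ + 1) * (ip b (YY b) + sq b)) :=
      mul_le_mul_of_nonneg_left hbYb (by positivity)
    calc sq b ≤ 2 * (NN κ + 1) ^ 2 * ((NN κ + 1) * (ip b (YY b) + sq b)) := h1.trans h2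
      _ = (ip b (YY b) + sq b) * (2 * (NN κ + 1) ^ 3) := by ring
  calc sq a + sq b ≤ (NN κ + 1) * sq a * (2 * (NN κ + 1) ^ 3) +
      (ip b (YY b) + sq b) * (2 * (NN κ + 1) ^ 3) := by linarith
    _ = (-sq c + NN κ * sq a + ip b (YY b) + (sq c + (sq a + sq b))) *
        (2 * (NN κ + 1) ^ 3) := by ring

end

end Vale.Agent.P370.H337
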