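import Vale.Agent.P370.H337.Trans
import Vale.Agent.P370.H337.Star

/-! The blocks with total spin 1/2: states with a logical and a gauge configuration. -/

namespace Vale.Agent.P370.H337

open Finset Function

set_option linter.unusedSectionVars false

noncomputable section

/-- States of logical bits and gauge spins. -/
abbrev F2 (ι : Type) : Type := (ι → Bool) → (ι → Bool) → ℝ

variable {ι : Type} [Fintype ι] [DecidableEq ι]

/-- inner product -/
def ip2 (φ χ : F2 ι) : ℝ := ∑ j, ip (φ j) (χ j)

/-- squared norm -/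
def sq2 (φ : F2 ι) : ℝ := ∑ j, sq (φ j)

/-- the configuration with all flags off -/
def mk0 (j s : ι → Bool) : ι → B3 := fun i => (false, j i, s i)

/-- embedding -/
def emb (φ : F2 ι) : St ι B3 := fun a =>
  if (∀ i, (a i).1 = false) then φ (fun i => (a i).2.1) (fun i => (a i).2.2) else 0

/-- restriction -/
def res (ψ : St ι B3) : F2 ι := fun j s => ψ (mk0 j s)

lemma res_emb (φ : F2 ι) : res (emb φ) = φ := by
  funext j s
  simp [res, emb, mk0]

lemma ip_emb (φ : F2 ι) (ψ : St ι B3) : ip (emb φ) ψ = ip2 φ (res ψ) := by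
  unfold ip2 ip
  rw [← Fintype.sum_prod_type']
  symm
  refine Fintype.sum_of_injective (fun p : (ι → Bool) × (ι → Bool) => mk0 p.1 p.2) ?_ _ _ ?_ ?_
  · rintro ⟨j, s⟩ ⟨j', s'⟩ h
    have h1 : ∀ i, mk0 j s i = mk0 j' s' i := fun i => congrFun h i
    simp only [mk0, Prod.mk.injEq, true_and] at h1
    rw [Prod.mk.injEq]
    exact ⟨funext fun i => (h1 i).1, funext fun i => (h1 i).2⟩
  · intro a ha
    have : ¬ ∀ i, (a i).1 = false := by
      intro h
      apply ha
      refine ⟨(fun i => (a i).2.1, fun i => (a i).2.2), ?_⟩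
      funext i
      simp only [mk0]
      rw [← h i]
    simp [emb, this]
  · rintro ⟨j, s⟩
    simp [emb, res, mk0]

/-- the state vanishes when the flag of block `I` is on -/
def Van (I : ι) (ψ : St ι B3) : Prop := ∀ a, (a I).1 = true → ψ a = 0

lemma van_emb (I : ι) (φ : F2 ι) : Van I (emb φ) := by
  intro a ha
  rw [emb, if_neg]
  intro h
  rw [h I] at ha
  exact absurd ha (by simp)

lemma van_loc {I J : ι} (h : I ≠ J) (M : Matrix B3 B3 ℝ) {ψ : St ι B3} (hψ : Van I ψ) :
    Van I (loc J M ψ) := by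
  intro a ha
  rw [loc_apply]
  refine Finset.sum_eq_zero fun b _ => ?_
  rw [hψ _ (by rw [update_of_ne h]; exact ha), mul_zero]

/-- operator on one logical bit -/
def locL (I : ι) (A : Matrix Bool Bool ℝ) (φ : F2 ι) : F2 ι :=
  fun j => ∑ b, A (j I) b • φ (update j I b)

lemma mk0_update (j s : ι → Bool) (I : ι) (j' s' : Bool) :
    update (mk0 j s) I (false, j', s') = mk0 (update j I j') (update s I s') := by
  funext i
  by_cases h : i = I
  · subst h
    simp [mk0]
  · simp [mk0, h]

lemma res_loc {I : ι} (M : Matrix B3 B3 ℝ) (A g : Matrix Bool Bool ℝ)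
    (hM : ∀ j s j' s', M (false, j, s) (false, j', s') = A j j' * g s s')
    {ψ : St ι B3} (hψ : Van I ψ) :
    res (loc I M ψ) = locL I A (fun j => loc I g (res ψ j)) := by
  funext j s
  have h1 : res (loc I M ψ) j s = ∑ b, M (mk0 j s I) b * ψ (update (mk0 j s) I b) := rfl
  rw [h1, Fintype.sum_prod_type, Fintype.sum_bool]
  have h2 : ∑ y : Bool × Bool, M (mk0 j s I) (true, y) * ψ (update (mk0 j s) I (true, y)) = 0 := by
    refine Finset.sum_eq_zero fun b _ => ?_
    rw [hψ _ (by simp), mul_zero]
  rw [h2, zero_add, Fintype.sum_prod_type]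
  simp only [locL, Finset.sum_apply, Pi.smul_apply, smul_eq_mul, loc_apply, Finset.mul_sum]
  refine Finset.sum_congr rfl fun b _ => Finset.sum_congr rfl fun c _ => ?_
  rw [mk0_update]
  have h3 : M (mk0 j s I) (false, b, c) = A (j I) b * g (s I) c := hM _ _ _ _
  rw [h3]
  simp only [res]
  ring

lemma locL_gop (I : ι) (A : Matrix Bool Bool ℝ) (T : St ι Bool →ₗ[ℝ] St ι Bool) (φ : F2 ι) :
    locL I A (fun j => T (φ j)) = fun j => T (locL I A φ j) := by
  funext j
  simp only [locL, map_sum, map_smul]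

lemma locL_add (I : ι) (A : Matrix Bool Bool ℝ) (φ χ : F2 ι) :
    locL I A (φ + χ) = locL I A φ + locL I A χ := by
  funext j
  simp [locL, smul_add, Finset.sum_add_distrib]

lemma locL_sub (I : ι) (A : Matrix Bool Bool ℝ) (φ χ : F2 ι) :
    locL I A (φ - χ) = locL I A φ - locL I A χ := by
  funext j
  simp [locL, smul_sub, Finset.sum_sub_distrib]

/-! ### The gauge exchange -/

lemma gauge_pt (ψ : St ι Bool) (g : Bool → Bool → ℤ) (c : Bool → ℝ) (f : Bool → Bool)
    (hg : ∀ s t, (g s t : ℝ) = if t = f s then c s else 0) (I : ι) (s : ι → Bool) :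
    loc I (rg g) ψ s = c (s I) * ψ (update s I (f (s I))) := by
  rw [loc_apply, Finset.sum_eq_single (f (s I))]
  · simp [rg, hg]
  · intro b _ hb
    simp [rg, hg, hb]
  · simp

lemma gauge_swap {I J : ι} (hIJ : I ≠ J) (ψ : St ι Bool) :
    loc I (rg gX) (loc J (rg gX) ψ) + loc I (rg gZ) (loc J (rg gZ) ψ)
      - loc I (rg gE) (loc J (rg gE) ψ) = (2 : ℝ) • act (Equiv.swap I J) ψ - ψ := by
  funext s
  have hX : ∀ (K : ι) (χ : St ι Bool) (t : ι → Bool),
      loc K (rg gX) χ t = 1 * χ (update t K (!t K)) := fun K χ t =>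
    gauge_pt χ gX (fun _ => 1) (fun b => !b) (by intro s t; simp [gX]) K t
  have hZ : ∀ (K : ι) (χ : St ι Bool) (t : ι → Bool),
      loc K (rg gZ) χ t = (if t K then -1 else 1) * χ (update t K (t K)) := fun K χ t =>
    gauge_pt χ gZ (fun b => if b then -1 else 1) (fun b => b)
      (by intro s t; simp only [gZ]; split_ifs <;> simp) K t
  have hE : ∀ (K : ι) (χ : St ι Bool) (t : ι → Bool),
      loc K (rg gE) χ t = (if t K then 1 else -1) * χ (update t K (!t K)) := fun K χ t =>
    gauge_pt χ gE (fun b => if b then 1 else -1) (fun b => !b)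
      (by intro s t; simp only [gE]; split_ifs <;> simp) K t
  simp only [Pi.add_apply, Pi.sub_apply, Pi.smul_apply, smul_eq_mul, act_apply, hX, hZ, hE,
    update_of_ne hIJ.symm, update_eq_self]
  by_cases h : s I = s J
  · have h1 : s ∘ Equiv.swap I J = s := by
      funext i
      simp only [Function.comp_apply, Equiv.swap_apply_def]
      split_ifs <;> simp_all
    rw [h1, ← h]
    cases s I <;> simp <;> ring
  · have h1 : s ∘ Equiv.swap I J = update (update s I (!s I)) J (!s J) := by
      funext i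
      by_cases hi : i = I
      · subst hi
        rw [Function.comp_apply, Equiv.swap_apply_left, update_of_ne hIJ, update_self]
        cases h3 : s i <;> cases h4 : s J <;> simp_all
      · by_cases hj : i = J
        · subst hj
          rw [Function.comp_apply, Equiv.swap_apply_right, update_self]
          cases h3 : s i <;> cases h4 : s I <;> simp_all
        · rw [Function.comp_apply, Equiv.swap_apply_of_ne_of_ne hi hj, update_of_ne hj,
            update_of_ne hi]
    rw [h1]
    cases h3 : s I <;> cases h4 : s J <;> simp_all <;> ring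

/-- The exchange of two sites of different blocks on the spin-1/2 subspace. -/
lemma res_sw_diff {I J : ι} (hIJ : I ≠ J) (i j : Fin 3) (φ : F2 ι) (ψ : St ι B3)
    (hψ : tr OO ψ = emb φ) :
    res (tr OO (sw (I, i) (J, j) ψ)) = (1 / 2 : ℝ) • (φ + locL I (AA i) (locL J (AA j)
      (fun k => (2 : ℝ) • act (Equiv.swap I J) (φ k) - φ k))) := by
  rw [sw_diff hIJ, map_smul, map_sub, map_add, map_add]
  simp only [tr_loc OO_orth, hψ]
  have h1 : ∀ (z : Fin 3 → B3 → B3 → ℤ) (g : Bool → Bool → ℤ)
      (_ : ∀ i j s j' s', (OO * rm (z i) * OO.transpose) (false, j, s) (false, j', s') =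
        AA i j j' * rg g s s'),
      res (loc I (OO * rm (z i) * OO.transpose) (loc J (OO * rm (z j) * OO.transpose) (emb φ))) =
        locL I (AA i) (locL J (AA j) (fun k => loc I (rg g) (loc J (rg g) (φ k)))) := by
    intro z g hz
    rw [res_loc _ (AA i) (rg g) (hz i) (van_loc hIJ _ (van_emb I φ)),
      res_loc _ (AA j) (rg g) (hz j) (van_emb J φ), res_emb,
      locL_gop J (AA j) (loc I (rg g)) (fun k => loc J (rg g) (φ k))]
  have h2 := h1 zX gX cX
  have h3 := h1 zZ gZ cZ
  have h4 := h1 zE gE cE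
  have h5 : ∀ a b c d : St ι B3, res ((1 / 2 : ℝ) • (a + b + c - d)) =
      (1 / 2 : ℝ) • (res a + (res b + res c - res d)) := by
    intro a b c d
    funext j s
    simp [res]
    ring
  rw [h5, h2, h3, h4, res_emb, ← locL_add, ← locL_sub, ← locL_add, ← locL_sub]
  congr 4
  funext k
  exact gauge_swap hIJ (φ k)

/-- The exchange of two sites of one block on the spin-1/2 subspace. -/
lemma res_sw_same (I : ι) (k : Fin 3) (φ : F2 ι) (ψ : St ι B3) (hψ : tr OO ψ = emb φ) :
    res (tr OO (loc I (rm (zS k)) ψ)) = locL I (BB k) φ := by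
  rw [tr_loc OO_orth, hψ, res_loc _ (BB k) 1 (fun j s j' s' => by
    rw [cS, Matrix.one_apply]) (van_emb I φ), res_emb]
  congr 1
  funext j
  exact loc_one I (φ j)

end

end Vale.Agent.P370.H337
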