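import Vale.Agent.P370.H337.Alg

/-! The three parts of the Heisenberg operator (blocks, star, weak part) on states of blocks. -/

namespace Vale.Agent.P370.H337

open Finset Function

set_option linter.unusedSectionVars false

noncomputable section

section General

variable {ι : Type} [Fintype ι] [DecidableEq ι]

lemma sq_sw (p q : ι × Fin 3) (ψ : St ι B3) : sq (sw p q ψ) = sq ψ := by
  unfold sq
  refine Fintype.sum_equiv ((cfg ι).trans
    ((Equiv.arrowCongr (Equiv.swap p q) (Equiv.refl Bool)).trans (cfg ι).symm)) _ _ ?_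
  intro x
  have : (((cfg ι).trans
      ((Equiv.arrowCongr (Equiv.swap p q) (Equiv.refl Bool)).trans (cfg ι).symm)) x) =
      (cfg ι).symm (cfg ι x ∘ Equiv.swap p q) := by
    simp only [Equiv.trans_apply]
    congr 1
  rw [this]
  rfl

lemma sw_add (p q : ι × Fin 3) (ψ φ : St ι B3) : sw p q (ψ + φ) = sw p q ψ + sw p q φ := rfl

lemma sw_smul (p q : ι × Fin 3) (c : ℝ) (ψ : St ι B3) : sw p q (c • ψ) = c • sw p q ψ := rfl

lemma abs_ip_sw (p q : ι × Fin 3) (x y : St ι B3) :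
    |ip x (sw p q y)| ≤ Real.sqrt (sq x) * Real.sqrt (sq y) := by
  have := abs_ip_le x (sw p q y)
  rwa [sq_sw] at this

/-- the two indices different from `k` -/
def oi (k : Fin 3) : Fin 3 := k + 1
/-- the two indices different from `k` -/
def oj (k : Fin 3) : Fin 3 := k + 2

lemma loc_zS (I : ι) (k : Fin 3) (ψ : St ι B3) :
    loc I (rm (zS k)) ψ = sw (I, oi k) (I, oj k) ψ := by
  rw [sw_same I (i := oi k) (j := oj k) (k := k)]
  · unfold oi oj; fin_cases k <;> decide
  · unfold oi; fin_cases k <;> decide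
  · unfold oj; fin_cases k <;> decide

lemma emb_add (φ χ : F2 ι) : emb (φ + χ) = emb φ + emb χ := by
  funext a
  simp only [emb, Pi.add_apply]
  split_ifs <;> simp

lemma emb_sub (φ χ : F2 ι) : emb (φ - χ) = emb φ - emb χ := by
  funext a
  simp only [emb, Pi.sub_apply]
  split_ifs <;> simp

lemma ip_tr_emb {φ : F2 ι} {ψ : St ι B3} (hψ : tr OO ψ = emb φ) (χ : St ι B3) :
    ip ψ χ = ip2 φ (res (tr OO χ)) := by
  rw [← ip_tr OO_orth, hψ, ip_emb]

lemma sq_tr_emb {φ : F2 ι} {ψ : St ι B3} (hψ : tr OO ψ = emb φ) : sq ψ = sq2 φ := by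
  rw [sq_eq_ip, ip_tr_emb hψ, hψ, res_emb, ip2_self]

/-- the block part -/
def XF (ψ : St ι B3) : ℝ := ∑ I : ι, ∑ k : Fin 3, ip ψ (loc I (rm (zS k)) ψ)

/-- the block part in the adapted basis -/
lemma XF_eq (ψ : St ι B3) :
    XF ψ = ∑ a : ι → B3, (∑ I : ι, if (a I).1 = true then (3 : ℝ) else 0) * (tr OO ψ a) ^ 2 := by
  have h1 : ∀ I : ι, ∑ k : Fin 3, ip ψ (loc I (rm (zS k)) ψ) =
      ∑ a : ι → B3, (if (a I).1 = true then (3 : ℝ) else 0) * (tr OO ψ a) ^ 2 := by
    intro I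
    have h2 : ∑ k : Fin 3, ip ψ (loc I (rm (zS k)) ψ) =
        ip ψ (loc I (rm (zS 0) + rm (zS 1) + rm (zS 2)) ψ) := by
      rw [Fin.sum_univ_three, loc_add_mat, loc_add_mat, ip_add_right, ip_add_right]
    rw [h2, ← ip_tr OO_orth, tr_loc OO_orth]
    unfold ip
    refine Finset.sum_congr rfl fun a _ => ?_
    rw [loc_apply, Finset.sum_eq_single (a I)]
    · rw [cSum, if_pos rfl, update_eq_self]
      ring
    · intro b _ hb
      rw [cSum, if_neg (Ne.symm hb), zero_mul]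
    · simp
  rw [XF]
  simp_rw [h1]
  rw [Finset.sum_comm]
  refine Finset.sum_congr rfl fun a _ => ?_
  rw [Finset.sum_mul]

lemma XF_emb {φ : F2 ι} {ψ : St ι B3} (hψ : tr OO ψ = emb φ) : XF ψ = 0 := by
  rw [XF_eq, hψ]
  refine Finset.sum_eq_zero fun a _ => ?_
  by_cases h : ∀ i, (a i).1 = false
  · have : (∑ I : ι, if (a I).1 = true then (3 : ℝ) else 0) = 0 :=
      Finset.sum_eq_zero fun I _ => by rw [h I]; simp
    rw [this, zero_mul]
  · rw [emb, if_neg h]
    simp

lemma XF_ge (ψ ψ1 : St ι B3) (h1 : tr OO ψ1 = tr OO ψ - emb (res (tr OO ψ))) :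
    3 * sq ψ1 ≤ XF ψ := by
  rw [← sq_tr OO_orth ψ1, h1, XF_eq, sq, Finset.mul_sum]
  refine Finset.sum_le_sum fun a _ => ?_
  by_cases h : ∀ i, (a i).1 = false
  · have h2 : (tr OO ψ - emb (res (tr OO ψ))) a = 0 := by
      rw [Pi.sub_apply, emb, if_pos h, res]
      have : mk0 (fun i => (a i).2.1) (fun i => (a i).2.2) = a := by
        funext i
        simp only [mk0]
        rw [← h i]
      rw [this, sub_self]
    rw [h2]
    have : (∑ I : ι, if (a I).1 = true then (3 : ℝ) else 0) = 0 :=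
      Finset.sum_eq_zero fun I _ => by rw [h I]; simp
    rw [this]
    simp
  · have h2 : (tr OO ψ - emb (res (tr OO ψ))) a = tr OO ψ a := by
      rw [Pi.sub_apply, emb, if_neg h, sub_zero]
    rw [h2]
    have h3 : ∃ i, (a i).1 = true := by
      by_contra h4
      apply h
      intro i
      by_contra h5
      exact h4 ⟨i, by simpa using h5⟩
    obtain ⟨i, hi⟩ := h3
    have h4 : (3 : ℝ) ≤ ∑ I : ι, if (a I).1 = true then (3 : ℝ) else 0 := by
      have := Finset.single_le_sum (f := fun I : ι => if (a I).1 = true then (3 : ℝ) else 0)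
        (fun I _ => by positivity) (Finset.mem_univ i)
      simpa [hi] using this
    exact mul_le_mul_of_nonneg_right h4 (sq_nonneg _)

end General

variable {κ : Type} [Fintype κ] [DecidableEq κ]

/-- the star part (bilinear) -/
def LF (ψ χ : St (Option κ) B3) : ℝ :=
  ∑ q : κ, ∑ i : Fin 3, ∑ j : Fin 3, ip ψ (sw (none, i) (some q, j) χ)

/-- the weak part (bilinear) -/
def WF (c : κ → κ → Fin 3 → Fin 3 → ℝ) (hx hz : κ → ℝ) (J0 : ℝ) (ψ χ : St (Option κ) B3) : ℝ :=
  (∑ q : κ, ∑ k : Fin 3, gg hx hz q k * ip ψ (loc (some q) (rm (zS k)) χ)) +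
  1 / 2 * ∑ q : κ, ∑ q' ∈ univ.erase q, ∑ i : Fin 3, ∑ j : Fin 3,
    (J0 + ww c q q' i j) * ip ψ (sw (some q, i) (some q', j) χ)

lemma LF_add (a b x y : St (Option κ) B3) :
    LF (a + b) (x + y) = LF a x + LF a y + LF b x + LF b y := by
  simp only [LF, sw_add, ip_add_left, ip_add_right, Finset.sum_add_distrib]
  ring

lemma WF_add (c : κ → κ → Fin 3 → Fin 3 → ℝ) (hx hz : κ → ℝ) (J0 : ℝ)
    (a b x y : St (Option κ) B3) :
    WF c hx hz J0 (a + b) (x + y) = WF c hx hz J0 a x + WF c hx hz J0 a y +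
      WF c hx hz J0 b x + WF c hx hz J0 b y := by
  simp only [WF, sw_add, map_add, ip_add_left, ip_add_right, Finset.sum_add_distrib, mul_add]
  ring

lemma abs_LF (x y : St (Option κ) B3) :
    |LF x y| ≤ 9 * NN κ * (Real.sqrt (sq x) * Real.sqrt (sq y)) := by
  unfold LF
  refine (Finset.abs_sum_le_sum_abs _ _).trans ?_
  have h : ∀ q : κ, |∑ i : Fin 3, ∑ j : Fin 3, ip x (sw (none, i) (some q, j) y)| ≤
      9 * (Real.sqrt (sq x) * Real.sqrt (sq y)) := by
    intro q
    refine (Finset.abs_sum_le_sum_abs _ _).trans ?_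
    have h2 : ∀ i : Fin 3, |∑ j : Fin 3, ip x (sw (none, i) (some q, j) y)| ≤
        3 * (Real.sqrt (sq x) * Real.sqrt (sq y)) := by
      intro i
      refine (Finset.abs_sum_le_sum_abs _ _).trans ?_
      refine (Finset.sum_le_sum fun j _ => abs_ip_sw _ _ _ _).trans ?_
      simp
    refine (Finset.sum_le_sum fun i _ => h2 i).trans ?_
    simp only [Finset.sum_const, Finset.card_univ, Fintype.card_fin, nsmul_eq_mul]
    push_cast
    linarith
  refine (Finset.sum_le_sum fun q _ => h q).trans ?_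
  simp only [Finset.sum_const, Finset.card_univ, nsmul_eq_mul, NN]
  linarith

lemma abs_WF (c : κ → κ → Fin 3 → Fin 3 → ℝ) (hx hz : κ → ℝ) (J0 : ℝ)
    (x y : St (Option κ) B3) :
    |WF c hx hz J0 x y| ≤ RW c hx hz J0 * (Real.sqrt (sq x) * Real.sqrt (sq y)) := by
  unfold WF RW
  rw [add_mul]
  refine (abs_add_le _ _).trans (add_le_add ?_ ?_)
  · rw [Finset.sum_mul]
    refine (Finset.abs_sum_le_sum_abs _ _).trans (Finset.sum_le_sum fun q _ => ?_)
    rw [Finset.sum_mul]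
    refine (Finset.abs_sum_le_sum_abs _ _).trans (Finset.sum_le_sum fun k _ => ?_)
    rw [abs_mul, loc_zS]
    exact mul_le_mul_of_nonneg_left (abs_ip_sw _ _ _ _) (abs_nonneg _)
  · rw [abs_mul, abs_of_pos (by norm_num : (0 : ℝ) < 1 / 2), mul_assoc]
    refine mul_le_mul_of_nonneg_left ?_ (by norm_num)
    rw [Finset.sum_mul]
    refine (Finset.abs_sum_le_sum_abs _ _).trans (Finset.sum_le_sum fun q _ => ?_)
    rw [Finset.sum_mul]
    refine (Finset.abs_sum_le_sum_abs _ _).trans (Finset.sum_le_sum fun q' _ => ?_)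
    rw [Finset.sum_mul]
    refine (Finset.abs_sum_le_sum_abs _ _).trans (Finset.sum_le_sum fun i _ => ?_)
    rw [Finset.sum_mul]
    refine (Finset.abs_sum_le_sum_abs _ _).trans (Finset.sum_le_sum fun j _ => ?_)
    rw [abs_mul]
    exact mul_le_mul_of_nonneg_left (abs_ip_sw _ _ _ _) (abs_nonneg _)

/-- The star part on the spin-1/2 subspace. -/
lemma LF_emb {φ χ : F2 (Option κ)} {ψ ξ : St (Option κ) B3} (hψ : tr OO ψ = emb φ)
    (hξ : tr OO ξ = emb χ) :
    LF ψ ξ = 4 * NN κ * ip2 φ χ + ∑ j, ip (φ j) (YY (χ j)) := by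
  have h1 : ∀ q : κ, ∑ i : Fin 3, ∑ j : Fin 3, ip ψ (sw (none, i) (some q, j) ξ) =
      4 * ip2 φ χ + ∑ k, ip (φ k) (act (Equiv.swap none (some q)) (χ k)) := by
    intro q
    set Ξ : F2 (Option κ) := fun k => (2 : ℝ) • act (Equiv.swap none (some q)) (χ k) - χ k with hΞ
    have h2 : ∀ i j : Fin 3, ip ψ (sw (none, i) (some q, j) ξ) =
        1 / 2 * ip2 φ χ +
          1 / 2 * ip2 φ (locL none (AA i) (locL (some q) (AA j) Ξ)) := by
      intro i j
      rw [ip_tr_emb hψ, res_sw_diff (by simp) i j χ ξ hξ, ip2_smul_right, ip2_add_right]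
      ring
    simp_rw [h2, Finset.sum_add_distrib, ← Finset.mul_sum]
    have h3 := ee_eq φ Ξ none (some q) 0 0
    rw [ee_zero] at h3
    have h4 : ∀ i : Fin 3, mm 0 i = 1 := by
      intro i
      fin_cases i <;> simp [mm]
    simp_rw [h4, one_mul] at h3
    rw [← h3, hΞ]
    have h5 : ip2 φ (fun k => (2 : ℝ) • act (Equiv.swap none (some q)) (χ k) - χ k) =
        2 * (∑ k, ip (φ k) (act (Equiv.swap none (some q)) (χ k))) - ip2 φ χ := by
      simp only [ip2, ip_sub_right, ip_smul_right, Finset.sum_sub_distrib, Finset.mul_sum]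
    rw [h5]
    simp only [Finset.sum_const, Finset.card_univ, Fintype.card_fin, nsmul_eq_mul]
    push_cast
    ring
  rw [LF]
  simp_rw [h1]
  rw [Finset.sum_add_distrib, Finset.sum_comm]
  simp only [Finset.sum_const, Finset.card_univ, nsmul_eq_mul, YY_apply, NN, ip_sum_right]
  ring

/-- The logical form on the logical bits `some q`. -/
def HLx (c : κ → κ → Fin 3 → Fin 3 → ℝ) (hx hz : κ → ℝ) (η : St (Option κ) Bool) : ℝ :=
  (∑ q, ∑ q' ∈ univ.erase q, ∑ P, ∑ Q,
    c q q' P Q * ip η (loc (some q) (PM P) (loc (some q') (PM Q) η))) +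
  ∑ q, (hx q * ip η (loc (some q) (PM 1) η) + hz q * ip η (loc (some q) (PM 2) η))

lemma sum_erase_comm (f : κ → κ → ℝ) :
    ∑ q, ∑ q' ∈ univ.erase q, f q q' = ∑ q, ∑ q' ∈ univ.erase q, f q' q :=
  Finset.sum_comm' (by intro x y; simp [ne_comm])

/-- The weak part on the lowest space of the star. -/
lemma WF_emb (c : κ → κ → Fin 3 → Fin 3 → ℝ) (hx hz : κ → ℝ) (J0 : ℝ)
    {φ : F2 (Option κ)} {ψ : St (Option κ) B3} (hψ : tr OO ψ = emb φ)
    (hφ : ∀ j, QQ (φ j) = φ j) :
    WF c hx hz J0 ψ ψ = (5 / 2 * (NN κ * (NN κ - 1)) * J0 +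
      9 * ∑ q, ∑ q' ∈ univ.erase q, c q q' 0 0) * sq2 φ + ∑ s, HLx c hx hz (col s φ) := by
  have hact : ∀ (q q' : κ) (j : Option κ → Bool),
      act (Equiv.swap (some q) (some q')) (φ j) = φ j := by
    intro q q' j
    rw [← lft_swap, ← hφ j, act_QQ]
  -- local part
  have hloc : (∑ q : κ, ∑ k : Fin 3, gg hx hz q k * ip ψ (loc (some q) (rm (zS k)) ψ)) =
      ∑ s, ∑ q, (hx q * ip (col s φ) (loc (some q) (PM 1) (col s φ)) +
        hz q * ip (col s φ) (loc (some q) (PM 2) (col s φ))) := by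
    rw [Finset.sum_comm (s := (univ : Finset (Option κ → Bool)))]
    refine Finset.sum_congr rfl fun q _ => ?_
    have h1 : ∑ k : Fin 3, gg hx hz q k * ip ψ (loc (some q) (rm (zS k)) ψ) =
        ip2 φ (locL (some q) (∑ k, gg hx hz q k • BB k) φ) := by
      rw [locL_lin, ip2_sum_right]
      refine Finset.sum_congr rfl fun k _ => ?_
      rw [ip2_smul_right, ip_tr_emb hψ, res_sw_same (some q) k φ ψ hψ]
    rw [h1, gg_eq, ip2_col]
    refine Finset.sum_congr rfl fun s _ => ?_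
    rw [col_locL, loc_add_mat, loc_smul_mat, loc_smul_mat, ip_add_right, ip_smul_right,
      ip_smul_right]
  -- pair part
  have hpair : ∀ q q' : κ, q ≠ q' → (∑ i : Fin 3, ∑ j : Fin 3,
      (J0 + ww c q q' i j) * ip ψ (sw (some q, i) (some q', j) ψ)) =
      (5 * J0 + 9 * (c q q' 0 0 + c q' q 0 0)) * sq2 φ +
      ∑ P, ∑ Q, (c q q' P Q + c q' q Q P) * ee φ φ (some q) (some q') P Q := by
    intro q q' hq
    have h2 : ∀ i j : Fin 3, ip ψ (sw (some q, i) (some q', j) ψ) =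
        1 / 2 * sq2 φ +
          1 / 2 * ip2 φ (locL (some q) (AA i) (locL (some q') (AA j) φ)) := by
      intro i j
      rw [ip_tr_emb hψ, res_sw_diff (by simpa using hq) i j φ ψ hψ, ip2_smul_right, ip2_add_right,
        ip2_self]
      have h3 : (fun k => (2 : ℝ) • act (Equiv.swap (some q) (some q')) (φ k) - φ k) = φ := by
        funext k
        rw [hact]
        module
      rw [h3]
      ring
    simp_rw [h2]
    have h4 : ∀ P Q, ee φ φ (some q) (some q') P Q = ∑ i, ∑ j, (mm P i * mm Q j) *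
        ip2 φ (locL (some q) (AA i) (locL (some q') (AA j) φ)) := fun P Q => ee_eq _ _ _ _ _ _
    set e : Fin 3 → Fin 3 → ℝ := fun i j =>
      ip2 φ (locL (some q) (AA i) (locL (some q') (AA j) φ)) with he
    have h5 : ∑ i, ∑ j, e i j = sq2 φ := by
      have h6 := h4 0 0
      rw [ee_zero, ip2_self] at h6
      rw [h6]
      refine Finset.sum_congr rfl fun i _ => Finset.sum_congr rfl fun j _ => ?_
      have h7 : ∀ i : Fin 3, mm 0 i = 1 := by
        intro i
        fin_cases i <;> simp [mm]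
      rw [h7, h7, he]
      ring
    have h6 : ∑ i, ∑ j, ww c q q' i j = 18 * (c q q' 0 0 + c q' q 0 0) := by
      simp only [ww, Fin.sum_univ_three, mm]
      simp
      ring
    have h7 : ∑ i, ∑ j, ww c q q' i j * e i j =
        2 * ∑ P, ∑ Q, (c q q' P Q + c q' q Q P) * ee φ φ (some q) (some q') P Q := by
      simp_rw [h4, ww, Fin.sum_univ_three]
      ring
    have h8 : ∀ i j, (J0 + ww c q q' i j) * (1 / 2 * sq2 φ + 1 / 2 * e i j) =
        1 / 2 * J0 * sq2 φ + 1 / 2 * (ww c q q' i j * sq2 φ) + 1 / 2 * J0 * e i j +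
          1 / 2 * (ww c q q' i j * e i j) := fun i j => by ring
    change ∑ i, ∑ j, (J0 + ww c q q' i j) * (1 / 2 * sq2 φ + 1 / 2 * e i j) = _
    simp_rw [h8, Finset.sum_add_distrib, ← Finset.mul_sum]
    rw [h5, h7]
    simp_rw [← Finset.sum_mul]
    rw [h6]
    simp only [Finset.sum_const, Finset.card_univ, Fintype.card_fin, nsmul_eq_mul]
    push_cast
    ring
  rw [WF, hloc]
  have h9 : (∑ q : κ, ∑ q' ∈ univ.erase q, ∑ i : Fin 3, ∑ j : Fin 3,
      (J0 + ww c q q' i j) * ip ψ (sw (some q, i) (some q', j) ψ)) =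
      ∑ q : κ, ∑ q' ∈ univ.erase q, ((5 * J0 + 9 * (c q q' 0 0 + c q' q 0 0)) * sq2 φ +
      ∑ P, ∑ Q, (c q q' P Q + c q' q Q P) * ee φ φ (some q) (some q') P Q) := by
    refine Finset.sum_congr rfl fun q _ => Finset.sum_congr rfl fun q' hq' => ?_
    exact hpair q q' (by simpa [eq_comm] using hq')
  rw [h9]
  have h10 : (∑ q : κ, ∑ q' ∈ univ.erase q, ∑ P, ∑ Q,
      c q' q Q P * ee φ φ (some q) (some q') P Q) =
      ∑ q : κ, ∑ q' ∈ univ.erase q, ∑ P, ∑ Q, c q q' P Q * ee φ φ (some q) (some q') P Q := by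
    rw [sum_erase_comm]
    refine Finset.sum_congr rfl fun q _ => Finset.sum_congr rfl fun q' hq' => ?_
    rw [Finset.sum_comm]
    refine Finset.sum_congr rfl fun P _ => Finset.sum_congr rfl fun Q _ => ?_
    rw [ee_comm φ φ (by simpa using hq')]
  have h11 : (∑ q : κ, ∑ q' ∈ univ.erase q, c q' q 0 0) =
      ∑ q : κ, ∑ q' ∈ univ.erase q, c q q' 0 0 := (sum_erase_comm _).symm
  have h12 : ∑ q : κ, ∑ _q' ∈ univ.erase q, (5 * J0) = 5 * (NN κ * (NN κ - 1)) * J0 := by
    have : ∀ q : κ, ∑ _q' ∈ univ.erase q, (5 * J0) = (NN κ - 1) * (5 * J0) := by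
      intro q
      rw [Finset.sum_const, nsmul_eq_mul, Finset.card_erase_of_mem (Finset.mem_univ q),
        Finset.card_univ, NN, Nat.cast_sub, Nat.cast_one]
      exact Fintype.card_pos_iff.2 ⟨q⟩
    simp_rw [this]
    rw [Finset.sum_const, nsmul_eq_mul, Finset.card_univ, NN]
    ring
  have h13 : ∑ s, HLx c hx hz (col s φ) =
      (∑ q : κ, ∑ q' ∈ univ.erase q, ∑ P, ∑ Q, c q q' P Q * ee φ φ (some q) (some q') P Q) +
      ∑ s, ∑ q, (hx q * ip (col s φ) (loc (some q) (PM 1) (col s φ)) +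
        hz q * ip (col s φ) (loc (some q) (PM 2) (col s φ))) := by
    simp only [HLx, Finset.sum_add_distrib]
    congr 1
    rw [Finset.sum_comm]
    refine Finset.sum_congr rfl fun q _ => ?_
    rw [Finset.sum_comm]
    refine Finset.sum_congr rfl fun q' _ => ?_
    rw [Finset.sum_comm]
    refine Finset.sum_congr rfl fun P _ => ?_
    rw [Finset.sum_comm]
    refine Finset.sum_congr rfl fun Q _ => ?_
    rw [ee_col, Finset.mul_sum]
  have h14 : (∑ q : κ, ∑ q' ∈ univ.erase q, ((5 * J0 + 9 * (c q q' 0 0 + c q' q 0 0)) * sq2 φ +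
      ∑ P, ∑ Q, (c q q' P Q + c q' q Q P) * ee φ φ (some q) (some q') P Q)) =
      (5 * (NN κ * (NN κ - 1)) * J0 + 18 * ∑ q : κ, ∑ q' ∈ univ.erase q, c q q' 0 0) * sq2 φ +
      2 * ∑ q : κ, ∑ q' ∈ univ.erase q, ∑ P, ∑ Q,
        c q q' P Q * ee φ φ (some q) (some q') P Q := by
    have h15 : ∀ q q' : κ, ((5 * J0 + 9 * (c q q' 0 0 + c q' q 0 0)) * sq2 φ +
        ∑ P, ∑ Q, (c q q' P Q + c q' q Q P) * ee φ φ (some q) (some q') P Q) =
        (5 * J0) * sq2 φ + (9 * sq2 φ) * c q q' 0 0 + (9 * sq2 φ) * c q' q 0 0 +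
        (∑ P, ∑ Q, c q q' P Q * ee φ φ (some q) (some q') P Q) +
        ∑ P, ∑ Q, c q' q Q P * ee φ φ (some q) (some q') P Q := by
      intro q q'
      have h16 : ∑ P, ∑ Q, (c q q' P Q + c q' q Q P) * ee φ φ (some q) (some q') P Q =
          (∑ P, ∑ Q, c q q' P Q * ee φ φ (some q) (some q') P Q) +
          ∑ P, ∑ Q, c q' q Q P * ee φ φ (some q) (some q') P Q := by
        simp only [add_mul, Finset.sum_add_distrib]
      rw [h16]
      ring
    simp_rw [h15, Finset.sum_add_distrib, h10, ← Finset.mul_sum, h11]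
    have h17 : 5 * J0 * ∑ q : κ, ∑ _q' ∈ univ.erase q, sq2 φ =
        5 * (NN κ * (NN κ - 1)) * J0 * sq2 φ := by
      rw [← h12, Finset.sum_mul, Finset.mul_sum]
      refine Finset.sum_congr rfl fun q _ => ?_
      rw [Finset.sum_mul, Finset.mul_sum]
    rw [h17]
    ring
  rw [h14, h13]
  ring

end

end Vale.Agent.P370.H337
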