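import Vale.Agent.P370.H337.Loc

/-! The central spin: `Y = ∑_q SWAP_{0 q}` on spin states of `Option κ` satisfies
`(N + 1)(Y + 1) = (Y + 1)² + D`, `D = ∑_{q < q'} (1 - SWAP_{q q'})`; hence `Y ≥ -1`, the lowest
eigenvectors are symmetric under exchanges of the outer spins, and there is a polynomial gap. -/

namespace Vale.Agent.P370.H337

open Finset Function

noncomputable section

variable {ι : Type} [Fintype ι] [DecidableEq ι]

/-- Permutations acting on spin states. -/
def act (σ : Equiv.Perm ι) : St ι Bool →ₗ[ℝ] St ι Bool where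
  toFun ψ s := ψ (s ∘ σ)
  map_add' _ _ := rfl
  map_smul' _ _ := rfl

omit [Fintype ι] [DecidableEq ι] in
lemma act_apply (σ : Equiv.Perm ι) (ψ : St ι Bool) (s : ι → Bool) :
    act σ ψ s = ψ (s ∘ σ) := rfl

omit [Fintype ι] [DecidableEq ι] in
lemma act_mul (σ τ : Equiv.Perm ι) (ψ : St ι Bool) : act (σ * τ) ψ = act σ (act τ ψ) := rfl

omit [Fintype ι] [DecidableEq ι] in
lemma act_one (ψ : St ι Bool) : act (1 : Equiv.Perm ι) ψ = ψ := rfl

lemma ip_act (σ : Equiv.Perm ι) (ψ φ : St ι Bool) : ip (act σ ψ) φ = ip ψ (act σ⁻¹ φ) := by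
  simp only [ip, act_apply]
  refine Fintype.sum_equiv (Equiv.arrowCongr σ.symm (Equiv.refl Bool)) _ _ ?_
  intro s
  have h : (Equiv.arrowCongr σ.symm (Equiv.refl Bool)) s = s ∘ σ := by
    funext i
    simp
  rw [h]
  congr 2
  funext i
  simp only [Function.comp_apply]
  congr 1
  exact (σ.apply_symm_apply i).symm

lemma sq_act (σ : Equiv.Perm ι) (ψ : St ι Bool) : sq (act σ ψ) = sq ψ := by
  rw [sq_eq_ip, ip_act, sq_eq_ip, ← act_mul, inv_mul_cancel, act_one]

lemma ip_swap (a b : ι) (ψ φ : St ι Bool) :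
    ip (act (Equiv.swap a b) ψ) φ = ip ψ (act (Equiv.swap a b) φ) := by
  rw [ip_act, Equiv.swap_inv]

/-! ### Norm estimates -/

lemma sq_add (ψ φ : St ι Bool) : sq (ψ + φ) = sq ψ + 2 * ip ψ φ + sq φ := by
  rw [sq_eq_ip, ip_add_left, ip_add_right, ip_add_right, ip_comm φ ψ, sq_eq_ip, sq_eq_ip]
  ring

lemma sqrt_sq_add (ψ φ : St ι Bool) :
    Real.sqrt (sq (ψ + φ)) ≤ Real.sqrt (sq ψ) + Real.sqrt (sq φ) := by
  rw [Real.sqrt_le_left (by positivity)]
  have h := abs_ip_le ψ φ
  have h1 := Real.sq_sqrt (sq_nonneg' ψ)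
  have h2 := Real.sq_sqrt (sq_nonneg' φ)
  have h3 := le_abs_self (ip ψ φ)
  rw [sq_add]
  nlinarith

/-- `‖ψ - σψ‖ ≤ |supp σ| δ` when `‖ψ - τψ‖ ≤ δ` for all transpositions (of moved points). -/
lemma sub_act_le (ψ : St ι Bool) (δ : ℝ) (h0 : 0 ≤ δ) (S : Set ι)
    (hδ : ∀ a ∈ S, ∀ b ∈ S, Real.sqrt (sq (ψ - act (Equiv.swap a b) ψ)) ≤ δ) :
    ∀ (n : ℕ) (σ : Equiv.Perm ι), σ.support.card ≤ n → (∀ a, σ a ≠ a → a ∈ S) →
      Real.sqrt (sq (ψ - act σ ψ)) ≤ n * δ := by
  intro n
  induction n with
  | zero =>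
    intro σ h _
    have h1 : σ = 1 := by
      rw [← Equiv.Perm.support_eq_empty_iff]
      exact Finset.card_eq_zero.1 (Nat.le_zero.1 h)
    subst h1
    simp [act_one, sq]
  | succ n ih =>
    intro σ h hS
    by_cases h1 : ∃ x, σ x ≠ x
    · obtain ⟨x, hx⟩ := h1
      have h2 := Equiv.Perm.card_support_swap_mul hx
      set τ := Equiv.swap x (σ x) with hτ
      have hxS : x ∈ S := hS x hx
      have hx2 : σ x ∈ S := by
        apply hS
        intro h3
        exact hx (σ.injective h3)
      have h3 := ih (τ * σ) (by omega) (by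
        intro a ha
        by_contra haS
        have h4 : σ a = a := by
          by_contra h5
          exact haS (hS a h5)
        apply ha
        rw [Equiv.Perm.mul_apply, h4, hτ, Equiv.swap_apply_of_ne_of_ne]
        · rintro rfl
          exact haS hxS
        · rintro rfl
          exact haS hx2)
      have h4 : act σ ψ = act τ (act (τ * σ) ψ) := by
        rw [← act_mul, ← mul_assoc, hτ, Equiv.swap_mul_self, one_mul]
      have h5 : ψ - act σ ψ = (ψ - act τ ψ) + act τ (ψ - act (τ * σ) ψ) := by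
        rw [h4, map_sub]
        abel
      rw [h5]
      refine (sqrt_sq_add _ _).trans ?_
      rw [sq_act]
      have h6 := hδ x hxS (σ x) hx2
      push_cast
      linarith
    · have h2 : σ = 1 := Equiv.ext fun x => by
        by_contra h3
        exact h1 ⟨x, h3⟩
      subst h2
      simp only [act_one, sub_self]
      have : sq (0 : St ι Bool) = 0 := by simp [sq]
      rw [this, Real.sqrt_zero]
      positivity

/-! ### The three-spin identity -/

omit [Fintype ι] in
lemma three (a b c : ι) (hab : a ≠ b) (hac : a ≠ c) (hbc : b ≠ c) (ψ : St ι Bool) :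
    act (Equiv.swap a b) (act (Equiv.swap a c) ψ) + act (Equiv.swap a c) (act (Equiv.swap a b) ψ) =
      act (Equiv.swap a b) ψ + act (Equiv.swap a c) ψ + act (Equiv.swap b c) ψ - ψ := by
  funext s
  simp only [Pi.add_apply, Pi.sub_apply, act_apply]
  have key : s a = s b ∨ s a = s c ∨ s b = s c := by
    cases s a <;> cases s b <;> cases s c <;> simp
  rcases key with h | h | h
  · have h1 : s ∘ Equiv.swap a b = s := by
      funext i
      simp only [Function.comp_apply, Equiv.swap_apply_def]
      split_ifs <;> simp_all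
    have h2 : (s ∘ Equiv.swap a c) ∘ Equiv.swap a b = s ∘ Equiv.swap b c := by
      funext i
      simp only [Function.comp_apply, Equiv.swap_apply_def]
      split_ifs <;> simp_all
    rw [h1, h2]
    ring
  · have h1 : s ∘ Equiv.swap a c = s := by
      funext i
      simp only [Function.comp_apply, Equiv.swap_apply_def]
      split_ifs <;> simp_all
    have h2 : (s ∘ Equiv.swap a b) ∘ Equiv.swap a c = s ∘ Equiv.swap b c := by
      funext i
      simp only [Function.comp_apply, Equiv.swap_apply_def]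
      split_ifs <;> simp_all
    rw [h1, h2]
    ring
  · have h1 : s ∘ Equiv.swap b c = s := by
      funext i
      simp only [Function.comp_apply, Equiv.swap_apply_def]
      split_ifs <;> simp_all
    have h2 : (s ∘ Equiv.swap a b) ∘ Equiv.swap a c = s ∘ Equiv.swap a b := by
      funext i
      simp only [Function.comp_apply, Equiv.swap_apply_def]
      split_ifs <;> simp_all
    have h3 : (s ∘ Equiv.swap a c) ∘ Equiv.swap a b = s ∘ Equiv.swap a c := by
      funext i
      simp only [Function.comp_apply, Equiv.swap_apply_def]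
      split_ifs <;> simp_all
    rw [h1, h2, h3]
    ring

end

end Vale.Agent.P370.H337
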