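import Mathlib

/-! Local operators on real functions of configurations `ι → β`, their algebra, and the change of
basis by the same orthogonal matrix at every site. -/

namespace Vale.Agent.P370.H337

open Finset Function

noncomputable section

/-- Real states on configurations. -/
abbrev St (ι β : Type) : Type := (ι → β) → ℝ

variable {ι β : Type} [Fintype ι] [DecidableEq ι] [Fintype β] [DecidableEq β]

/-- inner product -/
def ip (ψ φ : St ι β) : ℝ := ∑ x, ψ x * φ x

/-- squared norm -/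
def sq (ψ : St ι β) : ℝ := ∑ x, ψ x ^ 2

omit [DecidableEq β] in
lemma sq_eq_ip (ψ : St ι β) : sq ψ = ip ψ ψ := by
  simp [sq, ip, pow_two]

/-- The operator acting by the matrix `M` at site `i`. -/
def loc (i : ι) (M : Matrix β β ℝ) : St ι β →ₗ[ℝ] St ι β where
  toFun ψ x := ∑ b, M (x i) b * ψ (update x i b)
  map_add' ψ φ := by
    funext x
    simp [mul_add, Finset.sum_add_distrib]
  map_smul' c ψ := by
    funext x
    simp [Finset.mul_sum, mul_left_comm]

omit [Fintype ι] [DecidableEq β] in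
lemma loc_apply (i : ι) (M : Matrix β β ℝ) (ψ : St ι β) (x : ι → β) :
    loc i M ψ x = ∑ b, M (x i) b * ψ (update x i b) := rfl

omit [Fintype ι] in
lemma loc_one (i : ι) (ψ : St ι β) : loc i (1 : Matrix β β ℝ) ψ = ψ := by
  funext x
  rw [loc_apply, Finset.sum_eq_single (x i)]
  · simp
  · intro b _ hb
    simp [Matrix.one_apply_ne (Ne.symm hb)]
  · simp

omit [Fintype ι] [DecidableEq β] in
lemma loc_mul (i : ι) (M N : Matrix β β ℝ) (ψ : St ι β) :
    loc i (M * N) ψ = loc i M (loc i N ψ) := by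
  funext x
  simp only [loc_apply, Matrix.mul_apply, update_self, update_idem, Finset.sum_mul,
    Finset.mul_sum]
  rw [Finset.sum_comm]
  refine Finset.sum_congr rfl fun c _ => Finset.sum_congr rfl fun b _ => by ring

omit [Fintype ι] [DecidableEq β] in
lemma loc_comm {i j : ι} (h : i ≠ j) (M N : Matrix β β ℝ) (ψ : St ι β) :
    loc i M (loc j N ψ) = loc j N (loc i M ψ) := by
  funext x
  simp only [loc_apply, update_of_ne h, update_of_ne h.symm, Finset.mul_sum]
  rw [Finset.sum_comm]
  refine Finset.sum_congr rfl fun c _ => Finset.sum_congr rfl fun b _ => ?_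
  rw [update_comm h]
  ring

omit [Fintype ι] [DecidableEq β] in
lemma loc_add_mat (i : ι) (M N : Matrix β β ℝ) (ψ : St ι β) :
    loc i (M + N) ψ = loc i M ψ + loc i N ψ := by
  funext x
  simp [loc_apply, add_mul, Finset.sum_add_distrib]

omit [Fintype ι] [DecidableEq β] in
lemma loc_smul_mat (i : ι) (c : ℝ) (M : Matrix β β ℝ) (ψ : St ι β) :
    loc i (c • M) ψ = c • loc i M ψ := by
  funext x
  simp [loc_apply, Finset.mul_sum, mul_assoc]

omit [DecidableEq β] in
/-- The adjoint of a local operator. -/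
lemma ip_loc (i : ι) (M : Matrix β β ℝ) (ψ φ : St ι β) :
    ip (loc i M ψ) φ = ip ψ (loc i M.transpose φ) := by
  simp only [ip, loc_apply, Finset.sum_mul, Finset.mul_sum]
  rw [← Fintype.sum_prod_type', ← Fintype.sum_prod_type']
  refine Fintype.sum_bijective (fun p : (ι → β) × β => (update p.1 i p.2, p.1 i))
    (Function.Involutive.bijective ?_) _ _ ?_
  · rintro ⟨x, b⟩
    simp
  · rintro ⟨x, b⟩
    simp [Matrix.transpose_apply]
    ring

omit [DecidableEq β] in
lemma ip_comm (ψ φ : St ι β) : ip ψ φ = ip φ ψ := by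
  simp [ip, mul_comm]

omit [DecidableEq β] in
lemma ip_add_left (ψ φ χ : St ι β) : ip (ψ + φ) χ = ip ψ χ + ip φ χ := by
  simp [ip, add_mul, Finset.sum_add_distrib]

omit [DecidableEq β] in
lemma ip_add_right (ψ φ χ : St ι β) : ip ψ (φ + χ) = ip ψ φ + ip ψ χ := by
  simp [ip, mul_add, Finset.sum_add_distrib]

omit [DecidableEq β] in
lemma ip_smul_right (c : ℝ) (ψ φ : St ι β) : ip ψ (c • φ) = c * ip ψ φ := by
  simp [ip, Finset.mul_sum, mul_left_comm]

omit [DecidableEq β] in
lemma ip_smul_left (c : ℝ) (ψ φ : St ι β) : ip (c • ψ) φ = c * ip ψ φ := by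
  simp [ip, Finset.mul_sum, mul_assoc]

omit [DecidableEq β] in
lemma sq_nonneg' (ψ : St ι β) : 0 ≤ sq ψ := Finset.sum_nonneg fun _ _ => sq_nonneg _

omit [DecidableEq β] in
/-- Cauchy-Schwarz. -/
lemma abs_ip_le (ψ φ : St ι β) : |ip ψ φ| ≤ Real.sqrt (sq ψ) * Real.sqrt (sq φ) := by
  rw [← Real.sqrt_mul (sq_nonneg' ψ), ← Real.sqrt_sq_eq_abs]
  apply Real.sqrt_le_sqrt
  exact Finset.sum_mul_sq_le_sq_mul_sq _ _ _

/-- The same matrix applied at all sites of a list. -/
def trl (O : Matrix β β ℝ) : List ι → (St ι β →ₗ[ℝ] St ι β)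
  | [] => LinearMap.id
  | i :: l => loc i O ∘ₗ trl O l

omit [Fintype ι] [DecidableEq β] in
lemma trl_loc_of_notMem (O M : Matrix β β ℝ) {l : List ι} {i : ι} (h : i ∉ l) (ψ : St ι β) :
    trl O l (loc i M ψ) = loc i M (trl O l ψ) := by
  induction l with
  | nil => rfl
  | cons k l ih =>
    simp only [List.mem_cons, not_or] at h
    simp only [trl, LinearMap.comp_apply]
    rw [ih h.2, loc_comm (Ne.symm h.1)]

omit [Fintype ι] in
lemma trl_loc_of_mem {O : Matrix β β ℝ} (hO : O.transpose * O = 1) (M : Matrix β β ℝ)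
    {l : List ι} (hl : l.Nodup) {i : ι} (h : i ∈ l) (ψ : St ι β) :
    trl O l (loc i M ψ) = loc i (O * M * O.transpose) (trl O l ψ) := by
  induction l with
  | nil => simp at h
  | cons k l ih =>
    simp only [trl, LinearMap.comp_apply]
    rw [List.nodup_cons] at hl
    by_cases hik : i = k
    · subst hik
      rw [trl_loc_of_notMem O M hl.1, ← loc_mul, ← loc_mul, Matrix.mul_assoc, Matrix.mul_assoc,
        hO, Matrix.mul_one]
    · have h' : i ∈ l := by
        simpa [hik] using h
      rw [ih hl.2 h', loc_comm (Ne.symm hik)]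

/-- The global change of basis. -/
def tr (O : Matrix β β ℝ) : St ι β →ₗ[ℝ] St ι β := trl O (Finset.univ : Finset ι).toList

lemma tr_loc {O : Matrix β β ℝ} (hO : O.transpose * O = 1) (M : Matrix β β ℝ) (i : ι)
    (ψ : St ι β) : tr O (loc i M ψ) = loc i (O * M * O.transpose) (tr O ψ) :=
  trl_loc_of_mem hO M (Finset.nodup_toList _) (by simp) ψ

lemma ip_trl {O : Matrix β β ℝ} (hO : O.transpose * O = 1) (l : List ι) (ψ φ : St ι β) :
    ip (trl O l ψ) (trl O l φ) = ip ψ φ := by
  induction l with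
  | nil => rfl
  | cons k l ih =>
    simp only [trl, LinearMap.comp_apply]
    rw [ip_loc, ← loc_mul, hO, loc_one, ih]

lemma ip_tr {O : Matrix β β ℝ} (hO : O.transpose * O = 1) (ψ φ : St ι β) :
    ip (tr O ψ) (tr O φ) = ip ψ φ := ip_trl hO _ ψ φ

lemma sq_tr {O : Matrix β β ℝ} (hO : O.transpose * O = 1) (ψ : St ι β) :
    sq (tr O ψ) = sq ψ := by
  rw [sq_eq_ip, ip_tr hO, sq_eq_ip]

omit [DecidableEq β] in
lemma sq_eq_zero {ψ : St ι β} (h : sq ψ = 0) : ψ = 0 := by
  funext x
  have := (Finset.sum_eq_zero_iff_of_nonneg (fun x _ => sq_nonneg (ψ x))).1 h x (Finset.mem_univ x)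
  simpa using this

lemma tr_surjective {O : Matrix β β ℝ} (hO : O.transpose * O = 1) :
    Function.Surjective (tr O : St ι β →ₗ[ℝ] St ι β) := by
  apply LinearMap.surjective_of_injective
  rw [← LinearMap.ker_eq_bot, LinearMap.ker_eq_bot']
  intro ψ h
  apply sq_eq_zero
  rw [← sq_tr hO, h]
  simp [sq]

end

end Vale.Agent.P370.H337
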