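import Vale.Agent.P370.H337.Block

/-! Exchange operators of sites `(block, spin)` as local operators, in the adapted basis. -/

namespace Vale.Agent.P370.H337

open Finset Function

noncomputable section

/-- real matrix of an integer one -/
def rm (z : B3 → B3 → ℤ) : Matrix B3 B3 ℝ := fun x y => (z x y : ℝ)

/-- normalisation -/
def cn (a : B3) : ℝ := (Real.sqrt (un a : ℝ))⁻¹

/-- the orthogonal matrix of the adapted basis -/
def OO : Matrix B3 B3 ℝ := fun a x => cn a * (uv a x : ℝ)

lemma un_pos (a : B3) : (0 : ℝ) < (un a : ℝ) := by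
  have : ∀ a : B3, 0 < un a := by decide
  exact_mod_cast this a

lemma cn_sq (a : B3) : cn a * cn a = ((un a : ℝ))⁻¹ := by
  rw [cn, ← mul_inv, Real.mul_self_sqrt (un_pos a).le]

lemma OO_orth : OO.transpose * OO = 1 := by
  ext x y
  rw [Matrix.mul_apply]
  simp only [Matrix.transpose_apply, OO]
  have h := un_orth x y
  have h2 : (∑ a, ((6 / un a : ℤ) : ℝ) * ((uv a x : ℝ) * (uv a y : ℝ))) =
      if x = y then (6 : ℝ) else 0 := by
    have := congrArg (fun z : ℤ => (z : ℝ)) h
    push_cast at this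
    rw [← this]
  have h3 : ∀ a : B3, ((6 / un a : ℤ) : ℝ) = 6 * (un a : ℝ)⁻¹ := by
    intro a
    have : ∀ a : B3, (6 / un a) * un a = 6 := by decide
    have h4 : ((6 / un a : ℤ) : ℝ) * (un a : ℝ) = 6 := by exact_mod_cast this a
    field_simp [(un_pos a).ne']
    exact h4
  have h5 : (∑ a, cn a * (uv a x : ℝ) * (cn a * (uv a y : ℝ))) * 6 =
      if x = y then (6 : ℝ) else 0 := by
    rw [← h2, Finset.sum_mul]
    refine Finset.sum_congr rfl fun a _ => ?_
    rw [h3, ← cn_sq]
    ring
  rw [Matrix.one_apply]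
  split_ifs with hxy
  · simp only [hxy, if_true] at h5 ⊢
    linarith
  · simp only [hxy, if_false] at h5
    linarith

lemma conj_apply (z : B3 → B3 → ℤ) (a b : B3) :
    (OO * rm z * OO.transpose) a b =
      cn a * cn b * ((∑ x, ∑ y, uv a x * z x y * uv b y : ℤ) : ℝ) := by
  rw [Matrix.mul_apply]
  simp only [Matrix.mul_apply, Matrix.transpose_apply, OO, rm, Finset.sum_mul]
  rw [Finset.sum_comm]
  push_cast
  rw [Finset.mul_sum]
  refine Finset.sum_congr rfl fun x _ => ?_
  rw [Finset.mul_sum]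
  refine Finset.sum_congr rfl fun y _ => ?_
  ring

/-- normalisation of the logical bit -/
def cl (j : Bool) : ℝ := cn (false, j, false)

lemma cn_false (j s : Bool) : cn (false, j, s) = cl j := by
  cases j <;> cases s <;> rfl

/-- the logical matrices `A_i` -/
def AA (i : Fin 3) : Matrix Bool Bool ℝ := fun j j' => cl j * cl j' * (al i j j' : ℝ)

/-- the exchanges inside a block on the logical bit -/
def BB (i : Fin 3) : Matrix Bool Bool ℝ := fun j j' => cl j * cl j' * (be i j j' : ℝ)

/-- real gauge matrices -/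
def rg (g : Bool → Bool → ℤ) : Matrix Bool Bool ℝ := fun s t => (g s t : ℝ)

lemma cX (i : Fin 3) (j s j' s' : Bool) :
    (OO * rm (zX i) * OO.transpose) (false, j, s) (false, j', s') = AA i j j' * rg gX s s' := by
  rw [conj_apply, zX_form, cn_false, cn_false, AA, rg]
  push_cast
  ring

lemma cZ (i : Fin 3) (j s j' s' : Bool) :
    (OO * rm (zZ i) * OO.transpose) (false, j, s) (false, j', s') = AA i j j' * rg gZ s s' := by
  rw [conj_apply, zZ_form, cn_false, cn_false, AA, rg]
  push_cast
  ring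

lemma cE (i : Fin 3) (j s j' s' : Bool) :
    (OO * rm (zE i) * OO.transpose) (false, j, s) (false, j', s') = AA i j j' * rg gE s s' := by
  rw [conj_apply, zE_form, cn_false, cn_false, AA, rg]
  push_cast
  ring

lemma cS (k : Fin 3) (j s j' s' : Bool) :
    (OO * rm (zS k) * OO.transpose) (false, j, s) (false, j', s') =
      BB k j j' * (if s = s' then 1 else 0) := by
  rw [conj_apply, zS_form, cn_false, cn_false, BB]
  push_cast
  split_ifs <;> simp

lemma cSum (a b : B3) :
    (OO * (rm (zS 0) + rm (zS 1) + rm (zS 2)) * OO.transpose) a b =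
      if a = b then (if a.1 then 3 else 0) else 0 := by
  have h : rm (zS 0) + rm (zS 1) + rm (zS 2) =
      rm (fun x y => zS 0 x y + zS 1 x y + zS 2 x y) := by
    ext x y
    simp [rm]
  rw [h, conj_apply, zS_sum]
  split_ifs with h1 h2
  · subst h1
    push_cast
    rw [cn_sq]
    field_simp [(un_pos a).ne']
  · simp
  · simp

/-! ### Sites -/

variable {ι : Type} [Fintype ι] [DecidableEq ι]

omit [Fintype ι] [DecidableEq ι] in
lemma bit_mk (i : Fin 3) (f : Fin 3 → Bool) : bit i (f 0, f 1, f 2) = f i := by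
  fin_cases i <;> rfl

lemma mk_bit (x : B3) : (bit 0 x, bit 1 x, bit 2 x) = x := rfl

/-- Configurations of blocks and configurations of sites. -/
def cfg (ι : Type) : (ι → B3) ≃ (ι × Fin 3 → Bool) where
  toFun x p := bit p.2 (x p.1)
  invFun s i := (s (i, 0), s (i, 1), s (i, 2))
  left_inv x := by
    funext i
    exact mk_bit (x i)
  right_inv s := by
    funext p
    exact bit_mk p.2 (fun k => s (p.1, k))

/-- The exchange of two sites on states of blocks. -/
def sw (p q : ι × Fin 3) (ψ : St ι B3) : St ι B3 :=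
  fun x => ψ ((cfg ι).symm (cfg ι x ∘ Equiv.swap p q))

omit [Fintype ι] in
lemma loc_X (I : ι) (i : Fin 3) (ψ : St ι B3) (x : ι → B3) :
    loc I (rm (zX i)) ψ x = ψ (update x I (flp i (x I))) := by
  rw [loc_apply, Finset.sum_eq_single (flp i (x I))]
  · simp [rm, zX]
  · intro b _ hb
    simp [rm, zX, hb]
  · simp

omit [Fintype ι] in
lemma loc_Z (I : ι) (i : Fin 3) (ψ : St ι B3) (x : ι → B3) :
    loc I (rm (zZ i)) ψ x = (if bit i (x I) then -1 else 1) * ψ x := by
  rw [loc_apply, Finset.sum_eq_single (x I)]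
  · simp [rm, zZ]
  · intro b _ hb
    simp [rm, zZ, hb]
  · simp

omit [Fintype ι] in
lemma loc_E (I : ι) (i : Fin 3) (ψ : St ι B3) (x : ι → B3) :
    loc I (rm (zE i)) ψ x =
      (if bit i (x I) then 1 else -1) * ψ (update x I (flp i (x I))) := by
  rw [loc_apply, Finset.sum_eq_single (flp i (x I))]
  · simp [rm, zE]
  · intro b _ hb
    simp [rm, zE, hb]
  · simp

omit [Fintype ι] in
lemma loc_S (I : ι) (k : Fin 3) (ψ : St ι B3) (x : ι → B3) :
    loc I (rm (zS k)) ψ x = ψ (update x I (swb k (x I))) := by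
  rw [loc_apply, Finset.sum_eq_single (swb k (x I))]
  · simp [rm, zS]
  · intro b _ hb
    simp [rm, zS, hb]
  · simp

lemma bit_flp_self : ∀ (i : Fin 3) (x : B3), bit i (flp i x) = !bit i x := by decide

lemma bit_flp_of_ne : ∀ (i k : Fin 3) (x : B3), k ≠ i → bit k (flp i x) = bit k x := by decide

lemma bit_swb : ∀ (i j k l : Fin 3) (x : B3), i ≠ j → k ≠ i → k ≠ j →
    bit l (swb k x) = bit (Equiv.swap i j l) x := by decide

omit [Fintype ι] in
/-- Exchange of two different sites of one block. -/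
lemma sw_same (I : ι) {i j k : Fin 3} (hij : i ≠ j) (hki : k ≠ i) (hkj : k ≠ j) (ψ : St ι B3) :
    sw (I, i) (I, j) ψ = loc I (rm (zS k)) ψ := by
  funext x
  rw [loc_S]
  unfold sw
  congr 1
  rw [Equiv.symm_apply_eq]
  funext p
  obtain ⟨K, l⟩ := p
  simp only [Function.comp_apply, cfg, Equiv.coe_fn_mk]
  by_cases hK : K = I
  · subst hK
    rw [update_self, bit_swb i j k l _ hij hki hkj]
    by_cases h1 : l = i
    · subst h1
      simp
    · by_cases h2 : l = j
      · subst h2
        simp
      · rw [Equiv.swap_apply_of_ne_of_ne, Equiv.swap_apply_of_ne_of_ne h1 h2]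
        · simpa using h1
        · simpa using h2
  · rw [update_of_ne hK, Equiv.swap_apply_of_ne_of_ne]
    · simp [hK]
    · simp [hK]

omit [Fintype ι] in
lemma cfg_swap_eq {I J : ι} (i j : Fin 3) (x : ι → B3)
    (h : bit i (x I) = bit j (x J)) :
    (cfg ι).symm (cfg ι x ∘ Equiv.swap (I, i) (J, j)) = x := by
  rw [Equiv.symm_apply_eq]
  funext p
  simp only [Function.comp_apply, cfg, Equiv.coe_fn_mk]
  by_cases h1 : p = (I, i)
  · subst h1
    rw [Equiv.swap_apply_left]
    exact h.symm
  · by_cases h2 : p = (J, j)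
    · subst h2
      rw [Equiv.swap_apply_right]
      exact h
    · rw [Equiv.swap_apply_of_ne_of_ne h1 h2]

omit [Fintype ι] in
lemma cfg_swap_ne {I J : ι} (hIJ : I ≠ J) (i j : Fin 3) (x : ι → B3)
    (h : bit i (x I) ≠ bit j (x J)) :
    (cfg ι).symm (cfg ι x ∘ Equiv.swap (I, i) (J, j)) =
      update (update x I (flp i (x I))) J (flp j (x J)) := by
  rw [Equiv.symm_apply_eq]
  funext p
  simp only [Function.comp_apply, cfg, Equiv.coe_fn_mk]
  obtain ⟨K, l⟩ := p
  by_cases h1 : (K, l) = (I, i)
  · obtain ⟨rfl, rfl⟩ := Prod.mk.inj h1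
    rw [Equiv.swap_apply_left]
    simp only
    rw [update_of_ne hIJ, update_self, bit_flp_self]
    cases h3 : bit l (x K) <;> cases h4 : bit j (x J) <;> simp_all
  · by_cases h2 : (K, l) = (J, j)
    · obtain ⟨rfl, rfl⟩ := Prod.mk.inj h2
      rw [Equiv.swap_apply_right]
      simp only
      rw [update_self, bit_flp_self]
      cases h3 : bit l (x K) <;> cases h4 : bit i (x I) <;> simp_all
    · rw [Equiv.swap_apply_of_ne_of_ne h1 h2]
      simp only
      by_cases hKJ : K = J
      · subst hKJ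
        rw [update_self, bit_flp_of_ne]
        intro h5
        exact h2 (by rw [h5])
      · rw [update_of_ne hKJ]
        by_cases hKI : K = I
        · subst hKI
          rw [update_self, bit_flp_of_ne]
          intro h5
          exact h1 (by rw [h5])
        · rw [update_of_ne hKI]

omit [Fintype ι] in
/-- Exchange of two sites of different blocks. -/
lemma sw_diff {I J : ι} (hIJ : I ≠ J) (i j : Fin 3) (ψ : St ι B3) :
    sw (I, i) (J, j) ψ = (1 / 2 : ℝ) • (ψ + loc I (rm (zX i)) (loc J (rm (zX j)) ψ)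
      + loc I (rm (zZ i)) (loc J (rm (zZ j)) ψ) - loc I (rm (zE i)) (loc J (rm (zE j)) ψ)) := by
  funext x
  simp only [Pi.smul_apply, Pi.add_apply, Pi.sub_apply, loc_X, loc_Z, loc_E, smul_eq_mul,
    update_of_ne hIJ.symm]
  by_cases h : bit i (x I) = bit j (x J)
  · rw [sw, cfg_swap_eq i j x h, ← h]
    cases bit i (x I) <;> simp <;> ring
  · rw [sw, cfg_swap_ne hIJ i j x h]
    cases h3 : bit i (x I) <;> cases h4 : bit j (x J) <;> simp_all <;> ring

end

end Vale.Agent.P370.H337
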